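import Mathlib

/-!
P253: torus-invariant Kaehler metrics on Reinhardt subsets of complex coordinate space.

A metric is given by its coefficient matrix: the squared length of a vector `X` at `z` is
`∑ i j, X i * g z i j * conj (X j)`.
-/

namespace Vale.Agent.P253

open Complex ComplexConjugate Matrix Topology Filter Set
open scoped ComplexOrder

variable {n : ℕ}

/-- Squared length of `X` at `z`. -/
noncomputable def sqLength (g : (Fin n → ℂ) → Matrix (Fin n) (Fin n) ℂ) (z X : Fin n → ℂ) : ℝ :=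
  (∑ i, ∑ j, X i * g z i j * conj (X j)).re

/-- Holomorphic directional derivative `∑ k, X k * ∂f/∂z k`. -/
noncomputable def dz (f : (Fin n → ℂ) → ℂ) (z X : Fin n → ℂ) : ℂ :=
  (fderiv ℝ f z X - I * fderiv ℝ f z (I • X)) / 2

/-- Antiholomorphic directional derivative `∑ k, conj (X k) * ∂f/∂(conj z k)`. -/
noncomputable def dzbar (f : (Fin n → ℂ) → ℂ) (z X : Fin n → ℂ) : ℂ :=
  (fderiv ℝ f z X + I * fderiv ℝ f z (I • X)) / 2

/-- Holomorphic bisectional curvature `R(X, conj X, Y, conj Y)`, by the coordinate formula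
`R_{i j' k l'} = - ∂_k ∂_l' g_{i j'} + g^{p q'} ∂_k g_{i q'} ∂_l' g_{p j'}`. -/
noncomputable def bisec (g : (Fin n → ℂ) → Matrix (Fin n) (Fin n) ℂ) (z X Y : Fin n → ℂ) : ℝ :=
  (-(dzbar (fun y => dz (fun u => ∑ i, ∑ j, Y i * g u i j * conj (Y j)) y X) z X) +
    ∑ q, ∑ p, (∑ i, Y i * dz (fun u => g u i q) z X) * (g z)⁻¹ q p *
      conj (∑ i, Y i * dz (fun u => g u i p) z X)).re

/-- A torus-invariant set with a torus-invariant Kaehler metric of class `C^2`. -/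
structure IsInvariantKahler (D : Set (Fin n → ℂ))
    (g : (Fin n → ℂ) → Matrix (Fin n) (Fin n) ℂ) : Prop where
  mem_rot : ∀ z ∈ D, ∀ l : Fin n → ℂ, (∀ i, ‖l i‖ = 1) → (fun i => l i * z i) ∈ D
  smooth : ∀ i j, ContDiffOn ℝ 2 (fun z => g z i j) D
  posDef : ∀ z ∈ D, (g z).PosDef
  closed : ∀ z ∈ D, ∀ i j k, dz (fun u => g u i j) z (Pi.single k 1) =
    dz (fun u => g u k j) z (Pi.single i 1)
  invariant : ∀ z ∈ D, ∀ l : Fin n → ℂ, (∀ i, ‖l i‖ = 1) → ∀ i j,
    l i * g (fun k => l k * z k) i j * conj (l j) = g z i j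

/-- Completeness: every continuously differentiable curve of finite length in `D` converges to a
point of `D`. -/
def IsCompleteMetric (D : Set (Fin n → ℂ)) (g : (Fin n → ℂ) → Matrix (Fin n) (Fin n) ℂ) : Prop :=
  ∀ γ γ' : ℝ → Fin n → ℂ,
    (∀ t ∈ Ico (0 : ℝ) 1, γ t ∈ D ∧ HasDerivWithinAt γ (γ' t) (Ico 0 1) t) →
    ContinuousOn γ' (Ico 0 1) →
    (∃ C, ∀ s ∈ Ico (0 : ℝ) 1, ∫ t in (0 : ℝ)..s, Real.sqrt (sqLength g (γ t) (γ' t)) ≤ C) →
    ∃ p ∈ D, Tendsto γ (𝓝[<] 1) (𝓝 p)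

end Vale.Agent.P253
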