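import Mathlib

/-! Existence of integral curves for all forward times, given limits at finite times. -/

namespace Vale.Agent.P253

open Topology Filter Set Metric
open scoped NNReal

variable {E : Type*} [NormedAddCommGroup E] [NormedSpace ℝ E] [FiniteDimensional ℝ E] {X : E → E}

theorem integralCurve_unique (hX : ContDiff ℝ 1 X) {T : ℝ} {α β : ℝ → E}
    (hα : ∀ t ∈ Icc 0 T, HasDerivWithinAt α (X (α t)) (Icc 0 T) t)
    (hβ : ∀ t ∈ Icc 0 T, HasDerivWithinAt β (X (β t)) (Icc 0 T) t) (h : α 0 = β 0) :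
    EqOn α β (Icc 0 T) := by
  have hαc : ContinuousOn α (Icc 0 T) := fun t ht => (hα t ht).continuousWithinAt
  have hβc : ContinuousOn β (Icc 0 T) := fun t ht => (hβ t ht).continuousWithinAt
  obtain ⟨K, hK⟩ := hX.locallyLipschitz.locallyLipschitzOn.exists_lipschitzOnWith_of_compact
    ((isCompact_Icc.image_of_continuousOn hαc).union (isCompact_Icc.image_of_continuousOn hβc))
  exact ODE_solution_unique_of_mem_Icc_right (v := fun _ => X) (fun _ _ => hK) hαc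
    (fun t ht => (hα t (Ico_subset_Icc_self ht)).mono_of_mem_nhdsWithin
      (Icc_mem_nhdsGE_of_mem ht))
    (fun t ht => Or.inl (mem_image_of_mem _ (Ico_subset_Icc_self ht))) hβc
    (fun t ht => (hβ t (Ico_subset_Icc_self ht)).mono_of_mem_nhdsWithin
      (Icc_mem_nhdsGE_of_mem ht))
    (fun t ht => Or.inr (mem_image_of_mem _ (Ico_subset_Icc_self ht))) h

theorem exists_integralCurve (hX : ContDiff ℝ 1 X) (x : E)
    (hlim : ∀ (T : ℝ) (α : ℝ → E), 0 < T → α 0 = x →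
      (∀ t ∈ Ico 0 T, HasDerivWithinAt α (X (α t)) (Ico 0 T) t) →
        ∃ p, Tendsto α (𝓝[<] T) (𝓝 p))
    (T : ℝ) : ∃ α : ℝ → E, α 0 = x ∧ ∀ t ∈ Icc 0 T, HasDerivWithinAt α (X (α t)) (Icc 0 T) t := by
  classical
  set S := {T : ℝ | ∃ α : ℝ → E, α 0 = x ∧
    ∀ t ∈ Icc 0 T, HasDerivWithinAt α (X (α t)) (Icc 0 T) t} with hS
  have hdown : ∀ a b, a ≤ b → b ∈ S → a ∈ S := fun a b hab ⟨α, h0, hα⟩ =>
    ⟨α, h0, fun t ht => (hα t ⟨ht.1, ht.2.trans hab⟩).mono (Icc_subset_Icc_right hab)⟩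
  by_contra hT
  have hb : ∀ a ∈ S, a ≤ T := fun a ha => le_of_not_ge fun h => hT (hdown T a h ha)
  have hbdd : BddAbove S := ⟨T, hb⟩
  obtain ⟨α₁, h10, ε₁, hε₁, h1⟩ :=
    hX.contDiffAt.exists_forall_mem_closedBall_exists_eq_forall_mem_Ioo_hasDerivAt₀ (x₀ := x) 0
  have hsmall : ε₁ / 2 ∈ S := ⟨α₁, h10, fun t ht =>
    (h1 t ⟨by linarith [ht.1], by linarith [ht.2]⟩).hasDerivWithinAt⟩
  set M := sSup S with hM
  have hM0 : 0 < M := (half_pos hε₁).trans_le (le_csSup hbdd hsmall)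
  have hmem : ∀ a < M, a ∈ S := fun a ha => by
    obtain ⟨b, hb', hab⟩ := exists_lt_of_lt_csSup ⟨_, hsmall⟩ ha
    exact hdown a b hab.le hb'
  choose sol hsol0 hsol using fun a (ha : a < M) => hmem a ha
  let α : ℝ → E := fun t => if ht : (t + M) / 2 < M then sol _ ht t else x
  have hαeq : ∀ a (ha : a < M), EqOn α (sol a ha) (Icc 0 a) := by
    intro a ha t ht
    have ht' : (t + M) / 2 < M := by linarith [ht.2]
    simp only [α, dif_pos ht']
    rcases le_total a ((t + M) / 2) with h | h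
    · exact integralCurve_unique hX
        (fun s hs => (hsol _ ht' s ⟨hs.1, hs.2.trans h⟩).mono (Icc_subset_Icc_right h))
        (hsol a ha) ((hsol0 _ ht').trans (hsol0 a ha).symm) ht
    · exact integralCurve_unique hX (hsol _ ht')
        (fun s hs => (hsol a ha s ⟨hs.1, hs.2.trans h⟩).mono (Icc_subset_Icc_right h))
        ((hsol0 _ ht').trans (hsol0 a ha).symm) ⟨ht.1, by linarith [ht.2]⟩
  have hα0 : α 0 = x := by
    rw [hαeq 0 hM0 ⟨le_rfl, le_rfl⟩]; exact hsol0 _ _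
  have hαd : ∀ t ∈ Ico 0 M, HasDerivWithinAt α (X (α t)) (Ico 0 M) t := by
    intro t ht
    have ha : (t + M) / 2 < M := by linarith [ht.2]
    have hta : t ∈ Icc 0 ((t + M) / 2) := ⟨ht.1, by linarith [ht.2]⟩
    have h := ((hsol _ ha t hta).congr (hαeq _ ha) (hαeq _ ha hta))
    rw [← hαeq _ ha hta] at h
    refine h.mono_of_mem_nhdsWithin ?_
    filter_upwards [self_mem_nhdsWithin, mem_nhdsWithin_of_mem_nhds
      (Iio_mem_nhds (show t < (t + M) / 2 by linarith [ht.2]))] with s hs1 hs2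
    exact ⟨hs1.1, le_of_lt hs2⟩
  obtain ⟨p, hp⟩ := hlim M α hM0 hα0 hαd
  obtain ⟨r, hr, ε, hε, hloc⟩ :=
    hX.contDiffAt.exists_forall_mem_closedBall_exists_eq_forall_mem_Ioo_hasDerivAt (x₀ := p) 0
  have hev : ∀ᶠ t in 𝓝[<] M, α t ∈ closedBall p r ∧ t ∈ Ioo (max 0 (M - ε / 4)) M :=
    (hp.eventually (closedBall_mem_nhds p hr)).and
      (Ioo_mem_nhdsLT (max_lt hM0 (by linarith)))
  obtain ⟨t₀, hball, ht₀⟩ := hev.exists
  obtain ⟨β, hβ0, hβ⟩ := hloc _ hball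
  have ht₀0 : 0 < t₀ := (le_max_left _ _).trans_lt ht₀.1
  have ht₀M : M - ε / 4 < t₀ := (le_max_right _ _).trans_lt ht₀.1
  let γ : ℝ → E := fun t => if t ≤ t₀ then α t else β (t - t₀)
  have hγ : ∀ t ∈ Icc 0 (t₀ + ε / 2), HasDerivWithinAt γ (X (γ t)) (Icc 0 (t₀ + ε / 2)) t := by
    intro t ht
    rw [← Icc_union_Icc_eq_Icc ht₀0.le (by linarith : t₀ ≤ t₀ + ε / 2)]
    have hsub : Icc (0 : ℝ) t₀ ⊆ Ico 0 M := fun s hs => ⟨hs.1, hs.2.trans_lt ht₀.2⟩
    have hA : EqOn γ α (Icc 0 t₀) := fun s hs => if_pos hs.2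
    have hB : EqOn γ (fun s => β (s - t₀)) (Icc t₀ (t₀ + ε / 2)) := fun s hs => by
      rcases hs.1.eq_or_lt with h | h
      · simp [γ, ← h, hβ0]
      · exact if_neg (not_le.2 h)
    have hBd : ∀ s ∈ Icc t₀ (t₀ + ε / 2),
        HasDerivWithinAt γ (X (γ s)) (Icc t₀ (t₀ + ε / 2)) s := fun s hs => by
      rw [hB hs]
      exact ((hβ (s - t₀) ⟨by linarith [hs.1], by linarith [hs.2]⟩).comp_sub_const s
        t₀).hasDerivWithinAt.congr hB (hB hs)
    have hAd : ∀ s ∈ Icc 0 t₀, HasDerivWithinAt γ (X (γ s)) (Icc 0 t₀) s := fun s hs => by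
      rw [hA hs]
      exact ((hαd s (hsub hs)).mono hsub).congr hA (hA hs)
    rcases lt_trichotomy t t₀ with h | h | h
    · refine (hAd t ⟨ht.1, h.le⟩).mono_of_mem_nhdsWithin ?_
      filter_upwards [self_mem_nhdsWithin, mem_nhdsWithin_of_mem_nhds (Iio_mem_nhds h)]
        with s hs1 hs2
      rcases hs1 with h' | h'
      · exact h'
      · exact absurd h'.1 (not_le.2 hs2)
    · subst h
      exact (hAd t ⟨ht.1, le_rfl⟩).union (hBd t ⟨le_rfl, by linarith⟩)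
    · refine (hBd t ⟨h.le, ht.2⟩).mono_of_mem_nhdsWithin ?_
      filter_upwards [self_mem_nhdsWithin, mem_nhdsWithin_of_mem_nhds (Ioi_mem_nhds h)]
        with s hs1 hs2
      rcases hs1 with h' | h'
      · exact absurd h'.2 (not_le.2 hs2)
      · exact h'
  have : t₀ + ε / 2 ≤ M := le_csSup hbdd ⟨γ, by simp [γ, ht₀0.le, hα0], hγ⟩
  linarith

end Vale.Agent.P253
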