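import Vale.Agent.P253.Positive

/-! Complete strata and the final contradiction. -/

namespace Vale.Agent.P253

open Complex ComplexConjugate Matrix Topology Filter Set
open scoped ComplexOrder

variable {n : ℕ}

namespace StratumData

variable (S : StratumData n) {η : Fin n → ℝ} {T : ℝ} {α : ℝ → Fin n → ℝ}

theorem hasDeriv_inv_speed (hη : ∀ i ∉ S.K, η i = 0) (hη0 : η ≠ 0) {J : Set ℝ} {t : ℝ}
    (hα : HasDerivWithinAt α (S.vel (α t) η) J t) :
    HasDerivWithinAt (fun t => (S.speed (α t) η)⁻¹) (S.slope (α t) η) J t := by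
  have hd : DifferentiableAt ℝ (fun s => S.speed s η) (α t) := by
    have hv := differentiable_pi.1 ((S.contDiff_vel η).differentiable (by norm_num))
    simp only [speed, dotProduct]
    exact DifferentiableAt.fun_sum fun i _ => (hv i (α t)).const_mul (η i)
  have e : fderiv ℝ (fun s => S.speed s η) (α t) (S.vel (α t) η) = -S.cubic (α t) η :=
    (hd.hasFDerivAt.comp_hasDerivAt_of_eq 0 (hasDerivAt_line (α t) (S.vel (α t) η) 0)
      (by simp)).unique (S.hasDerivAt_speed_line (α t) η)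
  have h := (hd.hasFDerivAt.comp_hasDerivWithinAt t hα)
  rw [e] at h
  simpa [slope] using h.fun_inv (S.speed_pos (α t) hη hη0).ne'

theorem slope_antitone (hη : ∀ i ∉ S.K, η i = 0) (hη0 : η ≠ 0) {J : Set ℝ} (hJ : Convex ℝ J)
    (hα : ∀ t ∈ J, HasDerivWithinAt α (S.vel (α t) η) J t) :
    AntitoneOn (fun t => S.slope (α t) η) J := by
  have hd : ∀ t ∈ J, HasDerivWithinAt (fun t => S.slope (α t) η)
      (fderiv ℝ (fun s => S.slope s η) (α t) (S.vel (α t) η)) J t := fun t ht =>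
    (S.differentiable_slope hη hη0 (α t)).hasFDerivAt.comp_hasDerivWithinAt t (hα t ht)
  exact antitoneOn_of_hasDerivWithinAt_nonpos hJ (fun t ht => (hd t ht).continuousWithinAt)
    (fun t ht => (hd t (interior_subset ht)).mono interior_subset)
    (fun t ht => (S.slope_deriv_neg (α t) hη hη0).le)

theorem inv_speed_bounds (hη : ∀ i ∉ S.K, η i = 0) (hη0 : η ≠ 0) {a b c : ℝ} (hab : a ≤ b)
    (hbc : b ≤ c) (hα : ∀ t ∈ Icc a c, HasDerivWithinAt α (S.vel (α t) η) (Icc a c) t) :
    (S.speed (α c) η)⁻¹ - (S.speed (α b) η)⁻¹ ≤ S.slope (α b) η * (c - b) ∧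
      S.slope (α b) η * (b - a) ≤ (S.speed (α b) η)⁻¹ - (S.speed (α a) η)⁻¹ := by
  have hanti := S.slope_antitone hη hη0 (convex_Icc a c) hα
  set k := S.slope (α b) η
  have hk : ∀ t ∈ Icc a c, HasDerivWithinAt (fun t => (S.speed (α t) η)⁻¹ - k * t)
      (S.slope (α t) η - k) (Icc a c) t := fun t ht => by
    simpa using (S.hasDeriv_inv_speed hη hη0 (hα t ht)).fun_sub
      ((hasDerivWithinAt_id t _).const_mul k)
  have h1 : MonotoneOn (fun t => (S.speed (α t) η)⁻¹ - k * t) (Icc a b) :=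
    monotoneOn_of_hasDerivWithinAt_nonneg (convex_Icc a b)
      (fun t ht => ((hk t ⟨ht.1, ht.2.trans hbc⟩).mono (Icc_subset_Icc_right hbc)).continuousWithinAt)
      (fun t ht => (hk t ⟨(interior_subset ht).1, (interior_subset ht).2.trans hbc⟩).mono
        (interior_subset.trans (Icc_subset_Icc_right hbc)))
      (fun t ht => sub_nonneg.2 (hanti ⟨(interior_subset ht).1, (interior_subset ht).2.trans hbc⟩
        ⟨hab, hbc⟩ (interior_subset ht).2))
  have h2 : AntitoneOn (fun t => (S.speed (α t) η)⁻¹ - k * t) (Icc b c) :=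
    antitoneOn_of_hasDerivWithinAt_nonpos (convex_Icc b c)
      (fun t ht => ((hk t ⟨hab.trans ht.1, ht.2⟩).mono (Icc_subset_Icc_left hab)).continuousWithinAt)
      (fun t ht => (hk t ⟨hab.trans (interior_subset ht).1, (interior_subset ht).2⟩).mono
        (interior_subset.trans (Icc_subset_Icc_left hab)))
      (fun t ht => sub_nonpos.2 (hanti ⟨hab, hbc⟩
        ⟨hab.trans (interior_subset ht).1, (interior_subset ht).2⟩ (interior_subset ht).1))
  have e1 := h1 ⟨le_rfl, hab⟩ ⟨hab, le_rfl⟩ hab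
  have e2 := h2 ⟨le_rfl, hbc⟩ ⟨hbc, le_rfl⟩ hbc
  constructor <;> nlinarith

theorem sqLength_curve (hη : ∀ i ∉ S.K, η i = 0) (s : Fin n → ℝ) (c : ℝ) :
    sqLength S.g (pt S.K s) (c • scaleMap (S.vel s η) (pt S.K s)) = c ^ 2 * S.speed s η := by
  rw [sqLength_eq, star_smul, star_trivial, form_smul, ← Complex.ofReal_pow, Complex.re_ofReal_mul,
    S.speed_eq s hη]
  congr 2
  have e : star (scaleMap (S.vel s η) (pt S.K s)) = S.tvec s (S.vel s η) := by
    ext i; simp [tvec, pt_conj, mul_comm]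
  rw [e]

theorem exists_limit (hη : ∀ i ∉ S.K, η i = 0) (hη0 : η ≠ 0) (hT : 0 < T)
    (hα : ∀ t ∈ Ico 0 T, HasDerivWithinAt α (S.vel (α t) η) (Ico 0 T) t) :
    ∃ p, Tendsto α (𝓝[<] T) (𝓝 p) := by
  set F₀ := S.speed (α 0) η with hF₀
  have hF₀pos : 0 < F₀ := S.speed_pos (α 0) hη hη0
  have hbound : ∀ t ∈ Ico 0 T, S.speed (α t) η * (T - t) ≤ F₀ * T := by
    intro t ht
    have hF := S.speed_pos (α t) hη hη0
    have key : ∀ c ∈ Ioo t T, S.speed (α t) η * (c - t) ≤ F₀ * c := by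
      intro c hc
      obtain ⟨e1, e2⟩ := S.inv_speed_bounds hη hη0 ht.1 hc.1.le (a := 0) (c := c) fun r hr =>
        (hα r ⟨hr.1, hr.2.trans_lt hc.2⟩).mono fun x hx => ⟨hx.1, hx.2.trans_lt hc.2⟩
      have hc0 : 0 < (S.speed (α c) η)⁻¹ := inv_pos.2 (S.speed_pos (α c) hη hη0)
      have h3 : F₀⁻¹ * (c - t) ≤ (S.speed (α t) η)⁻¹ * c := by
        nlinarith [mul_le_mul_of_nonneg_left e1 ht.1,
          mul_le_mul_of_nonneg_left e2 (sub_nonneg.2 hc.1.le), mul_nonneg ht.1 hc0.le]
      calc _ = S.speed (α t) η * F₀ * (F₀⁻¹ * (c - t)) := by field_simp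
        _ ≤ S.speed (α t) η * F₀ * ((S.speed (α t) η)⁻¹ * c) :=
          mul_le_mul_of_nonneg_left h3 (by positivity)
        _ = _ := by field_simp
    refine le_of_tendsto_of_tendsto (b := 𝓝[<] T)
      (f := fun c => S.speed (α t) η * (c - t)) (g := fun c => F₀ * c)
      ((Continuous.tendsto (by fun_prop) T).mono_left nhdsWithin_le_nhds)
      ((Continuous.tendsto (by fun_prop) T).mono_left nhdsWithin_le_nhds) ?_
    filter_upwards [Ioo_mem_nhdsLT ht.2] with c hc using key c hc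
  have hmem : ∀ τ ∈ Ico (0 : ℝ) 1, T * τ ∈ Ico (0 : ℝ) T := fun τ hτ =>
    ⟨mul_nonneg hT.le hτ.1, by nlinarith [hτ.2]⟩
  have hαT : ∀ τ ∈ Ico (0 : ℝ) 1,
      HasDerivWithinAt (fun τ => α (T * τ)) (T • S.vel (α (T * τ)) η) (Ico 0 1) τ := fun τ hτ =>
    (hα _ (hmem τ hτ)).scomp τ
      (((hasDerivAt_id' τ).const_mul T).congr_deriv (mul_one T)).hasDerivWithinAt
      fun x hx => hmem x hx
  set γ : ℝ → Fin n → ℂ := fun τ => pt S.K (α (T * τ)) with hγ
  set γ' : ℝ → Fin n → ℂ := fun τ =>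
    T • scaleMap (S.vel (α (T * τ)) η) (pt S.K (α (T * τ))) with hγ'
  have hγd : ∀ τ ∈ Ico (0 : ℝ) 1, γ τ ∈ S.D ∧ HasDerivWithinAt γ (γ' τ) (Ico 0 1) τ := by
    refine fun τ hτ => ⟨S.pt_mem _, hasDerivWithinAt_pi.2 fun i => ?_⟩
    by_cases hi : i ∈ S.K
    · simp only [hγ, hγ', pt, if_pos hi, Pi.smul_apply, scaleMap_apply]
      refine ((hasDerivWithinAt_pi.1 (hαT τ hτ) i).exp.ofReal_comp).congr_deriv ?_
      simp; ring
    · simp only [hγ, hγ', pt, if_neg hi, Pi.smul_apply, scaleMap_apply, mul_zero, smul_zero]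
      exact hasDerivWithinAt_const _ _ _
  have hαc : ContinuousOn (fun τ => α (T * τ)) (Ico 0 1) := fun τ hτ =>
    (hαT τ hτ).continuousWithinAt
  have hγ'c : ContinuousOn γ' (Ico 0 1) := by
    refine continuousOn_pi.2 fun i => ?_
    simp only [hγ', Pi.smul_apply, scaleMap_apply]
    exact ((Complex.continuous_ofReal.comp_continuousOn ((continuous_apply i).comp_continuousOn
      ((S.contDiff_vel η).continuous.comp_continuousOn hαc))).mul
      ((continuous_apply i).comp_continuousOn (S.contDiff_pt.continuous.comp_continuousOn hαc)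
        )).const_smul T
  obtain ⟨p, hp, hlim⟩ := S.complete γ γ' hγd hγ'c ⟨2 * Real.sqrt (F₀ * T ^ 2), fun s hs => by
    have hsub : Icc (0 : ℝ) s ⊆ Ico 0 1 := fun x hx => ⟨hx.1, hx.2.trans_lt hs.2⟩
    have hd : ∀ τ ∈ uIcc (0 : ℝ) s, HasDerivAt
        (fun x => -(2 * Real.sqrt (F₀ * T ^ 2)) * Real.sqrt (1 - x))
        (Real.sqrt (F₀ * T ^ 2) / Real.sqrt (1 - τ)) τ := by
      intro τ hτ
      rw [uIcc_of_le hs.1] at hτ
      have h1 : 0 < 1 - τ := by linarith [(hsub hτ).2]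
      refine ((((hasDerivAt_id' τ).const_sub 1).sqrt h1.ne').const_mul _).congr_deriv ?_
      have := Real.sqrt_pos.2 h1
      field_simp
    have hc2 : ContinuousOn (fun τ => Real.sqrt (F₀ * T ^ 2) / Real.sqrt (1 - τ)) (Icc 0 s) :=
      continuousOn_const.div (by fun_prop) fun τ hτ =>
        (Real.sqrt_pos.2 (by linarith [(hsub hτ).2])).ne'
    have hc1 : ContinuousOn (fun τ => Real.sqrt (sqLength S.g (γ τ) (γ' τ))) (Icc 0 s) := by
      simp only [hγ, hγ', S.sqLength_curve hη]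
      have hv : ∀ i, Continuous fun x => S.vel x η i := fun i =>
        (continuous_apply i).comp (S.contDiff_vel η).continuous
      have hsp : Continuous fun x => S.speed x η := by
        simp only [speed, dotProduct]; fun_prop
      exact (continuousOn_const.mul
        (hsp.comp_continuousOn (hαc.mono hsub))).sqrt
    refine (intervalIntegral.integral_mono_on hs.1 (hc1.intervalIntegrable_of_Icc hs.1)
      (hc2.intervalIntegrable_of_Icc hs.1) fun τ hτ => ?_).trans ?_
    · have h1 : 0 < 1 - τ := by linarith [(hsub hτ).2]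
      simp only [hγ, hγ', S.sqLength_curve hη]
      rw [← Real.sqrt_div' _ h1.le]
      refine Real.sqrt_le_sqrt ?_
      rw [le_div_iff₀ h1]
      have := mul_le_mul_of_nonneg_left (hbound _ (hmem τ (hsub hτ))) hT.le
      linarith
    · rw [intervalIntegral.integral_eq_sub_of_hasDerivAt hd
        (hc2.intervalIntegrable_of_Icc hs.1)]
      simp only [sub_zero, Real.sqrt_one, mul_one]
      nlinarith [mul_nonneg (Real.sqrt_nonneg (F₀ * T ^ 2)) (Real.sqrt_nonneg (1 - s))]⟩
  have : (𝓝[<] (1 : ℝ)).NeBot := inferInstance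
  have hp0 : ∀ i ∉ S.K, p i = 0 := fun i hi =>
    tendsto_nhds_unique ((continuous_apply i).continuousAt.tendsto.comp hlim)
      (tendsto_const_nhds.congr' (Eventually.of_forall fun τ => (S.pt_out _ hi).symm))
  refine ⟨fun i => if i ∈ S.K then Real.log ‖p i‖ else α 0 i, tendsto_pi_nhds.2 fun i => ?_⟩
  have hscale : Tendsto (fun t : ℝ => t / T) (𝓝[<] T) (𝓝[<] 1) := by
    refine tendsto_nhdsWithin_of_tendsto_nhds_of_eventually_within _ ?_ ?_
    · have : Tendsto (fun t : ℝ => t / T) (𝓝 T) (𝓝 (T / T)) := (continuous_id.div_const T).tendsto T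
      rw [div_self hT.ne'] at this
      exact this.mono_left nhdsWithin_le_nhds
    · filter_upwards [self_mem_nhdsWithin] with t ht
      exact (div_lt_one hT).2 ht
  by_cases hi : i ∈ S.K
  · rw [if_pos hi]
    have hpi := S.minimal p hp hp0 i hi
    have h1 : Tendsto (fun τ => Real.log ‖γ τ i‖) (𝓝[<] 1) (𝓝 (Real.log ‖p i‖)) :=
      (Real.continuousAt_log (norm_ne_zero_iff.2 hpi)).tendsto.comp (tendsto_pi_nhds.1 hlim i).norm
    refine (h1.comp hscale).congr fun t => ?_
    simp [hγ, pt, hi, mul_div_cancel₀ t hT.ne', Complex.norm_exp]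
  · rw [if_neg hi]
    refine tendsto_const_nhds.congr' ?_
    filter_upwards [Ioo_mem_nhdsLT hT] with t ht
    have hsub : Icc (0 : ℝ) t ⊆ Ico 0 T := fun x hx => ⟨hx.1, hx.2.trans_lt ht.2⟩
    refine (constant_of_has_deriv_right_zero (f := fun x => α x i)
      (fun x hx => ((hasDerivWithinAt_pi.1 (hα x (hsub hx)) i).continuousWithinAt).mono hsub) ?_ t
      ⟨ht.1.le, le_rfl⟩).symm
    intro x hx
    have h := hasDerivWithinAt_pi.1 ((hα x (hsub (Ico_subset_Icc_self hx))).mono hsub) i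
    rw [show S.vel (α x) η i = 0 from S.inv_out (α x) hη i hi] at h
    exact h.mono_of_mem_nhdsWithin (Icc_mem_nhdsGE_of_mem hx)

theorem exists_flow (hη : ∀ i ∉ S.K, η i = 0) (hη0 : η ≠ 0) (s : Fin n → ℝ) (T : ℝ) :
    ∃ α : ℝ → Fin n → ℝ, α 0 = s ∧
      ∀ t ∈ Icc 0 T, HasDerivWithinAt α (S.vel (α t) η) (Icc 0 T) t :=
  exists_integralCurve ((S.contDiff_vel η).of_le (by norm_num)) s
    (fun _ _ hT _ hα => S.exists_limit hη hη0 hT hα) T

theorem slope_nonneg (hη : ∀ i ∉ S.K, η i = 0) (hη0 : η ≠ 0) (s : Fin n → ℝ) :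
    0 ≤ S.slope s η := by
  by_contra h
  push Not at h
  have hF := inv_pos.2 (S.speed_pos s hη hη0)
  set T := (S.speed s η)⁻¹ / -S.slope s η with hT
  have hT0 : 0 ≤ T := (div_pos hF (neg_pos.2 h)).le
  obtain ⟨α, h0, hα⟩ := S.exists_flow hη hη0 s T
  obtain ⟨e, -⟩ := S.inv_speed_bounds hη hη0 le_rfl hT0 hα
  rw [h0, sub_zero, show S.slope s η * T = -(S.speed s η)⁻¹ by
    rw [hT, div_neg, mul_neg, mul_div_cancel₀ _ h.ne]] at e
  linarith [inv_pos.2 (S.speed_pos (α T) hη hη0)]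

theorem K_eq_empty : S.K = ∅ := by
  by_contra hK
  obtain ⟨i, hi⟩ := Finset.nonempty_iff_ne_empty.2 hK
  set η : Fin n → ℝ := Pi.single i 1 with hηdef
  have hη : ∀ j ∉ S.K, η j = 0 := fun j hj =>
    Pi.single_eq_of_ne (fun h => hj (by rw [h]; exact hi)) _
  have hη0 : η ≠ 0 := fun h => one_ne_zero (α := ℝ) (by simpa [hηdef] using congrFun h i)
  have h0 : (fun s => S.slope s η) = fun _ => 0 := funext fun s => le_antisymm
    (by linarith [S.slope_nonneg (fun j hj => by simp [hη j hj]) (neg_ne_zero.2 hη0) s,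
      S.slope_neg s η]) (S.slope_nonneg hη hη0 s)
  have := S.slope_deriv_neg 0 hη hη0
  rw [h0] at this
  simp at this

end StratumData

variable {D : Set (Fin n → ℂ)} {g : (Fin n → ℂ) → Matrix (Fin n) (Fin n) ℂ}

theorem bisec_zero_left (z Y : Fin n → ℂ) : bisec g z 0 Y = 0 := by simp [bisec, dz, dzbar]

theorem bisec_zero_right (z X : Fin n → ℂ) : bisec g z X 0 = 0 := by simp [bisec, dz, dzbar]

/-- Positive curvature: the domain is the whole space. -/
theorem eq_univ_of_pos (hD : IsOpen D) (hne : D.Nonempty) (hg : IsInvariantKahler D g)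
    (hc : IsCompleteMetric D g) (hR : ∀ z ∈ D, ∀ X Y, X ≠ 0 → Y ≠ 0 → 0 < bisec g z X Y)
    (hmeet : ∀ i j, i ≠ j → ∃ p ∈ D, p i * p j = 0) : D = univ := by
  classical
  have hR0 : ∀ z ∈ D, ∀ X Y, 0 ≤ bisec g z X Y := fun z hz X Y => by
    rcases eq_or_ne X 0 with rfl | hX
    · rw [bisec_zero_left]
    rcases eq_or_ne Y 0 with rfl | hY
    · rw [bisec_zero_right]
    exact (hR z hz X Y hX hY).le
  set N : Set ℕ := {k | ∃ p ∈ D, (Finset.univ.filter fun i => p i ≠ 0).card = k} with hN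
  have hNne : N.Nonempty := hne.elim fun p hp => ⟨_, p, hp, rfl⟩
  obtain ⟨p, hp, hpk⟩ := Nat.sInf_mem hNne
  set K := Finset.univ.filter fun i => p i ≠ 0 with hK
  let S : StratumData n :=
    { D := D, g := g, K := K, isOpen := hD, kahler := hg, complete := hc, pos := hR
      pt_mem := fun s => mem_of_same_zeros hD hg hc hR0 hp fun i => by
        by_cases h : p i = 0 <;> simp [pt, hK, h, Complex.exp_ne_zero]
      minimal := fun q hq hq0 i hi hqi => by
        have hss : (Finset.univ.filter fun i => q i ≠ 0) ⊂ K := by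
          refine Finset.ssubset_iff_of_subset (fun j hj => ?_) |>.2 ⟨i, hi, by simp [hqi]⟩
          simp only [Finset.mem_filter, Finset.mem_univ, true_and] at hj
          by_contra h
          exact hj (hq0 j h)
        have := Nat.sInf_le (s := N) ⟨q, hq, rfl⟩
        rw [← hpk] at this
        exact absurd (Finset.card_lt_card hss) (not_lt.2 this)
      real := fun z hz i j => im_scaled_zero hD hg
        (fun q hq => torus_subset hD hne hg hc hR0 hq) hmeet hz i j }
  have hK0 : K = ∅ := S.K_eq_empty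
  have : p = 0 := funext fun i => by
    by_contra h
    have hi : i ∈ K := Finset.mem_filter.2 ⟨Finset.mem_univ _, h⟩
    rw [hK0] at hi
    exact Finset.notMem_empty i hi
  exact eq_univ_of_zero_mem hD hg hc hR0 (this ▸ hp)

end Vale.Agent.P253
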