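import Vale.Agent.P253.Defs

/-! Forms given by matrices, and derivatives of inverses. -/

namespace Vale.Agent.P253

open Complex ComplexConjugate Matrix Topology Filter Set
open scoped ComplexOrder

variable {n : ℕ}

/-- The sesquilinear form of a matrix. -/
def form (M : Matrix (Fin n) (Fin n) ℂ) (a b : Fin n → ℂ) : ℂ := ∑ i, ∑ j, conj (a i) * M i j * b j

theorem form_eq (M : Matrix (Fin n) (Fin n) ℂ) (a b : Fin n → ℂ) :
    form M a b = star a ⬝ᵥ (M *ᵥ b) := by
  simp [form, dotProduct, Matrix.mulVec, Finset.mul_sum, mul_assoc]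

theorem form_conj {M : Matrix (Fin n) (Fin n) ℂ} (h : M.IsHermitian) (a b : Fin n → ℂ) :
    conj (form M a b) = form M b a := by
  simp only [form, map_sum, map_mul, conj_conj]
  rw [Finset.sum_comm]
  refine Finset.sum_congr rfl fun j _ => Finset.sum_congr rfl fun i _ => ?_
  rw [← h.apply j i, ← starRingEnd_apply]
  ring

theorem form_pos {M : Matrix (Fin n) (Fin n) ℂ} (h : M.PosDef) {a : Fin n → ℂ} (ha : a ≠ 0) :
    0 < (form M a a).re := by
  rw [form_eq]; exact h.re_dotProduct_pos ha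

theorem form_nonneg {M : Matrix (Fin n) (Fin n) ℂ} (h : M.PosDef) (a : Fin n → ℂ) :
    0 ≤ (form M a a).re := by
  rcases eq_or_ne a 0 with rfl | ha
  · simp [form]
  · exact (form_pos h ha).le

theorem form_cs {M : Matrix (Fin n) (Fin n) ℂ} (h : M.PosDef) (a b : Fin n → ℂ) :
    (form M a b).re ^ 2 ≤ (form M a a).re * (form M b b).re := by
  have key : ∀ x : ℝ, 0 ≤ (form M b b).re * (x * x) + 2 * (form M a b).re * x + (form M a a).re := by
    intro x
    have h0 := form_nonneg h (fun i => a i + (x : ℂ) * b i)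
    have e : form M (fun i => a i + (x : ℂ) * b i) (fun i => a i + (x : ℂ) * b i) =
        form M a a + (x : ℂ) * (form M a b + form M b a) + (x : ℂ) * (x : ℂ) * form M b b := by
      simp only [form, map_add, map_mul, conj_ofReal, Finset.mul_sum, ← Finset.sum_add_distrib]
      refine Finset.sum_congr rfl fun i _ => Finset.sum_congr rfl fun j _ => ?_
      ring
    rw [e, ← form_conj h.1 a b] at h0
    simp [Complex.add_re, Complex.mul_re] at h0
    nlinarith [h0]
  have := discrim_le_zero key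
  unfold discrim at this
  nlinarith

theorem form_smul (M : Matrix (Fin n) (Fin n) ℂ) (x : ℝ) (a : Fin n → ℂ) :
    form M (x • a) (x • a) = (x : ℂ) ^ 2 * form M a a := by
  simp [form, Finset.mul_sum]
  refine Finset.sum_congr rfl fun i _ => Finset.sum_congr rfl fun j _ => ?_
  ring

theorem form_bound {M : Matrix (Fin n) (Fin n) ℂ} (h : M.PosDef) (N : Matrix (Fin n) (Fin n) ℂ) :
    ∃ C : ℝ, ∀ a, (form N a a).re ≤ C * (form M a a).re := by
  have hc : ∀ K : Matrix (Fin n) (Fin n) ℂ, Continuous fun a : Fin n → ℂ => (form K a a).re := by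
    intro K; unfold form; fun_prop
  obtain ⟨C, hC⟩ := (isCompact_sphere (0 : Fin n → ℂ) 1).exists_bound_of_continuousOn
    ((hc N).continuousOn.div (hc M).continuousOn fun a ha =>
      (form_pos h (ne_zero_of_mem_unit_sphere (⟨a, ha⟩ : Metric.sphere (0 : Fin n → ℂ) 1))).ne')
  refine ⟨C, fun a => ?_⟩
  rcases eq_or_ne a 0 with rfl | ha
  · simp [form]
  · have hn : 0 < ‖a‖ := norm_pos_iff.2 ha
    obtain ⟨b, hb1, hab⟩ : ∃ b, ‖b‖ = 1 ∧ a = ‖a‖ • b :=
      ⟨‖a‖⁻¹ • a, by rw [norm_smul, norm_inv, norm_norm, inv_mul_cancel₀ hn.ne'],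
        by rw [smul_smul, mul_inv_cancel₀ hn.ne', one_smul]⟩
    have hb : b ≠ 0 := norm_ne_zero_iff.1 (by rw [hb1]; norm_num)
    have h2 := (le_abs_self _).trans (hC b (mem_sphere_zero_iff_norm.2 hb1))
    rw [Pi.div_apply, div_le_iff₀ (form_pos h hb)] at h2
    generalize ‖a‖ = x at hab hn
    subst hab
    rw [form_smul, form_smul, ← Complex.ofReal_pow, Complex.re_ofReal_mul, Complex.re_ofReal_mul]
    calc _ ≤ x ^ 2 * (C * (form M b b).re) :=
          mul_le_mul_of_nonneg_left h2 (sq_nonneg _)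
      _ = _ := by ring

variable {E : Type*} [NormedAddCommGroup E] [NormedSpace ℝ E]

theorem contDiffAt_inv_entry {𝕂 : Type*} [NormedField 𝕂] [NormedAlgebra ℝ 𝕂] {k : WithTop ℕ∞}
    {M : E → Matrix (Fin n) (Fin n) 𝕂} {x : E}
    (hM : ∀ i j, ContDiffAt ℝ k (fun y => M y i j) x) (hx : (M x).det ≠ 0) (i j : Fin n) :
    ContDiffAt ℝ k (fun y => (M y)⁻¹ i j) x := by
  have hd : ∀ N : E → Matrix (Fin n) (Fin n) 𝕂, (∀ i j, ContDiffAt ℝ k (fun y => N y i j) x) →
      ContDiffAt ℝ k (fun y => (N y).det) x := by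
    intro N hN
    simp only [Matrix.det_apply]
    exact ContDiffAt.sum fun σ _ => (contDiffAt_prod fun l _ => hN _ _).const_smul _
  have ha : ContDiffAt ℝ k (fun y => (M y).adjugate i j) x := by
    simp only [Matrix.adjugate_apply]
    refine hd _ fun a b => ?_
    rcases eq_or_ne a j with rfl | hab
    · simp only [Matrix.updateRow_self]; exact contDiffAt_const
    · simp only [Matrix.updateRow_ne hab]; exact hM a b
  simp only [Matrix.inv_def, Matrix.smul_apply, Ring.inverse_eq_inv, smul_eq_mul]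
  exact ((hd M hM).inv hx).mul ha

theorem hasDerivAt_form {M : ℝ → Matrix (Fin n) (Fin n) ℂ} {a b : ℝ → Fin n → ℂ}
    {M' : Matrix (Fin n) (Fin n) ℂ} {a' b' : Fin n → ℂ} {t : ℝ}
    (hM : ∀ i j, HasDerivAt (fun s => M s i j) (M' i j) t) (ha : HasDerivAt a a' t)
    (hb : HasDerivAt b b' t) :
    HasDerivAt (fun s => form (M s) (a s) (b s))
      (form (M t) a' (b t) + form M' (a t) (b t) + form (M t) (a t) b') t := by
  have ha' := fun i => ((hasDerivAt_pi.1 ha) i).star
  have hb' := hasDerivAt_pi.1 hb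
  have e : form (M t) a' (b t) + form M' (a t) (b t) + form (M t) (a t) b' =
      ∑ i, ∑ j, ((conj (a' i) * M t i j + conj (a t i) * M' i j) * b t j +
        conj (a t i) * M t i j * b' j) := by
    simp only [form, ← Finset.sum_add_distrib]
    refine Finset.sum_congr rfl fun i _ => Finset.sum_congr rfl fun j _ => ?_
    ring
  rw [e]
  refine HasDerivAt.fun_sum fun i _ => HasDerivAt.fun_sum fun j _ => ?_
  exact (((ha' i).mul (hM i j)).mul (hb' j))

end Vale.Agent.P253
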