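import Vale.Agent.P253.Strata
import Vale.Agent.P253.Flow

/-! Strictly positive curvature excludes a complete stratum without coordinate zeros in its
closure. -/

namespace Vale.Agent.P253

open Complex ComplexConjugate Matrix Topology Filter Set
open scoped ComplexOrder

variable {n : ℕ}

/-- A closed stratum of a domain with invariant metric, real in logarithmic coordinates. -/
structure StratumData (n : ℕ) where
  D : Set (Fin n → ℂ)
  g : (Fin n → ℂ) → Matrix (Fin n) (Fin n) ℂ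
  K : Finset (Fin n)
  isOpen : IsOpen D
  kahler : IsInvariantKahler D g
  complete : IsCompleteMetric D g
  pos : ∀ z ∈ D, ∀ X Y, X ≠ 0 → Y ≠ 0 → 0 < bisec g z X Y
  pt_mem : ∀ s, pt K s ∈ D
  minimal : ∀ p ∈ D, (∀ i ∉ K, p i = 0) → ∀ i ∈ K, p i ≠ 0
  real : ∀ z ∈ D, ∀ i j, (z i * conj (z j) * g z i j).im = 0

namespace StratumData

variable (S : StratumData n) (s : Fin n → ℝ)

/-- The metric in logarithmic coordinates, completed by the identity outside the stratum. -/
noncomputable def mat : Matrix (Fin n) (Fin n) ℝ :=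
  of fun i j => (pt S.K s i * conj (pt S.K s j) * S.g (pt S.K s) i j).re +
    if i = j ∧ i ∉ S.K then 1 else 0

/-- Its directional derivative. -/
noncomputable def dmat (v : Fin n → ℝ) : Matrix (Fin n) (Fin n) ℝ :=
  of fun i j => (pt S.K s i * conj (pt S.K s j) * g₁ S.g v (pt S.K s) i j).re

/-- Its second directional derivative. -/
noncomputable def ddmat (v : Fin n → ℝ) : Matrix (Fin n) (Fin n) ℝ :=
  of fun i j => (pt S.K s i * conj (pt S.K s j) * g₂ S.g v (pt S.K s) i j).re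

/-- The tangent vector of the stratum with given logarithmic velocity. -/
noncomputable def tvec (x : Fin n → ℝ) : Fin n → ℂ := fun i => pt S.K s i * (x i : ℂ)

theorem pt_out {i : Fin n} (hi : i ∉ S.K) : pt S.K s i = 0 := if_neg hi

theorem pt_ne {i : Fin n} (hi : i ∈ S.K) : pt S.K s i ≠ 0 := by
  simp [pt, hi, Complex.exp_ne_zero]

theorem contDiff_pt : ContDiff ℝ 2 (pt S.K) := by
  refine contDiff_pi.2 fun i => ?_
  by_cases hi : i ∈ S.K
  · simp only [pt, if_pos hi]
    exact Complex.ofRealCLM.contDiff.comp (Real.contDiff_exp.comp (contDiff_apply ℝ ℝ i))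
  · simp only [pt, if_neg hi]; exact contDiff_const

theorem contDiff_mat (i j : Fin n) : ContDiff ℝ 2 (fun s => S.mat s i j) := by
  refine contDiff_iff_contDiffAt.2 fun s => ?_
  simp only [mat, of_apply]
  refine ContDiffAt.add (Complex.reCLM.contDiff.contDiffAt.comp s (ContDiffAt.mul
    (ContDiffAt.mul (contDiffAt_pi.1 S.contDiff_pt.contDiffAt i)
      (Complex.conjCLE.contDiff.contDiffAt.comp s (contDiffAt_pi.1 S.contDiff_pt.contDiffAt j)))
    ((contDiffAt_entry S.isOpen S.kahler (S.pt_mem s) i j).comp s S.contDiff_pt.contDiffAt)))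
    contDiffAt_const

theorem hasDerivAt_mat_line (v : Fin n → ℝ) (i j : Fin n) (t : ℝ) :
    HasDerivAt (fun t : ℝ => S.mat (s + t • v) i j) (S.dmat (s + t • v) v i j) t := by
  have h := (Complex.reCLM.hasFDerivAt.comp_hasDerivAt t (hasDerivAt_scaled_entry (v := v)
    (z := pt S.K s) S.isOpen S.kahler (by rw [ray_pt]; exact S.pt_mem _) i j)).add_const
    (if i = j ∧ i ∉ S.K then (1 : ℝ) else 0)
  simpa [ray_pt, mat, dmat, Function.comp_def] using h

theorem hasDerivAt_line (v : Fin n → ℝ) (t : ℝ) :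
    HasDerivAt (fun t : ℝ => s + t • v) v t := by
  simpa using ((hasDerivAt_id' t).smul_const v).const_add s

theorem fderiv_mat (v : Fin n → ℝ) (i j : Fin n) :
    fderiv ℝ (fun s => S.mat s i j) s v = S.dmat s v i j := by
  have h := ((S.contDiff_mat i j).differentiable (by norm_num) s).hasFDerivAt.comp_hasDerivAt_of_eq
    0 (hasDerivAt_line s v 0) (by simp)
  have h' := S.hasDerivAt_mat_line s v i j 0
  simp only [zero_smul, add_zero] at h'
  exact h.unique h'

theorem fderiv₂_mat (v : Fin n → ℝ) (i j : Fin n) :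
    fderiv ℝ (fderiv ℝ fun s => S.mat s i j) s v v = S.ddmat s v i j := by
  have h := ((((S.contDiff_mat i j).fderiv_right (m := 1) (by norm_num)).differentiable
    (by norm_num) s).hasFDerivAt.clm_apply (hasFDerivAt_const v s)).comp_hasDerivAt_of_eq
    0 (hasDerivAt_line s v 0) (by simp)
  have h' := Complex.reCLM.hasFDerivAt.comp_hasDerivAt 0 (hasDerivAt_scaled_g₁ (v := v)
    (z := pt S.K s) S.isOpen S.kahler (by rw [ray_pt]; exact S.pt_mem _) i j)
  simp only [ray_pt, zero_smul, add_zero] at h'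
  have h'' := h.congr_of_eventuallyEq (f₁ := fun t : ℝ => S.dmat (s + t • v) v i j)
    (Eventually.of_forall fun t => (S.fderiv_mat (s + t • v) v i j).symm)
  have := h''.unique h'
  simpa [ddmat] using this

theorem dmat_symm (v : Fin n → ℝ) (i j : Fin n) : S.dmat s v i j = S.dmat s v j i := by
  simp only [dmat, of_apply]
  rw [← Complex.conj_re, map_mul, map_mul, conj_conj,
    show conj (g₁ S.g v (pt S.K s) i j) = g₁ S.g v (pt S.K s) j i from
      (g₁_isHermitian S.isOpen S.kahler (S.pt_mem s)).apply j i, mul_comm (conj _)]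

theorem dmat_sum (v : Fin n → ℝ) (i j : Fin n) :
    S.dmat s v i j = ∑ k, v k * S.dmat s (Pi.single k 1) i j := by
  simp only [← fderiv_mat]
  conv_lhs => rw [pi_eq_sum_univ' v]
  simp [map_sum, Pi.single_apply, eq_comm]

theorem dmat_sym₃ (i j k : Fin n) :
    S.dmat s (Pi.single k 1) i j = S.dmat s (Pi.single i 1) k j := by
  simp only [dmat, of_apply]
  rw [g₁_sym S.isOpen S.kahler (S.pt_mem s) i j k]

theorem dmat_out (v : Fin n → ℝ) {i : Fin n} (hi : i ∉ S.K) (j : Fin n) : S.dmat s v i j = 0 := by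
  simp [dmat, S.pt_out s hi]

theorem mat_out {i : Fin n} (hi : i ∉ S.K) (x : Fin n → ℝ) : (S.mat s *ᵥ x) i = x i := by
  simp [mat, Matrix.mulVec, dotProduct, S.pt_out s hi, hi]

theorem mulVec_in {i : Fin n} (hi : i ∈ S.K) (x : Fin n → ℝ) :
    ((S.mat s *ᵥ x) i : ℂ) = pt S.K s i * (S.g (pt S.K s) *ᵥ S.tvec s x) i := by
  simp only [Matrix.mulVec, dotProduct, Complex.ofReal_sum, Finset.mul_sum, tvec]
  refine Finset.sum_congr rfl fun j _ => ?_
  have h := Complex.re_add_im (pt S.K s i * conj (pt S.K s j) * S.g (pt S.K s) i j)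
  rw [S.real _ (S.pt_mem s) i j, Complex.ofReal_zero, zero_mul, add_zero] at h
  simp only [mat, of_apply, hi, not_true, and_false, if_false, add_zero, Complex.ofReal_mul]
  linear_combination (x j : ℂ) * h + pt S.K s i * S.g (pt S.K s) i j * (x j : ℂ) *
    pt_conj S.K s j

theorem dot_mat {x : Fin n → ℝ} (hx : ∀ i ∉ S.K, x i = 0) (y : Fin n → ℝ) :
    x ⬝ᵥ (S.mat s *ᵥ y) = (form (S.g (pt S.K s)) (S.tvec s x) (S.tvec s y)).re := by
  rw [form_eq]
  simp only [dotProduct, Complex.re_sum]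
  refine Finset.sum_congr rfl fun i _ => ?_
  by_cases hi : i ∈ S.K
  · rw [show star (S.tvec s x) i = (x i : ℂ) * pt S.K s i by
      simp [tvec, pt_conj, mul_comm], mul_assoc, ← mulVec_in S s hi, Complex.re_ofReal_mul,
      Complex.ofReal_re]
  · simp [tvec, hx i hi, S.pt_out s hi]

theorem tvec_ne {x : Fin n → ℝ} (hx : ∀ i ∉ S.K, x i = 0) (h : x ≠ 0) : S.tvec s x ≠ 0 := by
  intro h0
  refine h (funext fun i => ?_)
  by_cases hi : i ∈ S.K
  · simpa [tvec, S.pt_ne s hi] using congrFun h0 i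
  · exact hx i hi

theorem det_mat : (S.mat s).det ≠ 0 := by
  intro h
  obtain ⟨x, hx0, hx⟩ := Matrix.exists_mulVec_eq_zero_iff.2 h
  have hout : ∀ i ∉ S.K, x i = 0 := fun i hi => by
    rw [← S.mat_out s hi x, hx]; rfl
  have := S.dot_mat s hout x
  rw [hx, dotProduct_zero] at this
  exact (form_pos (S.kahler.posDef _ (S.pt_mem s)) (S.tvec_ne s hout hx0)).ne this

theorem mat_cancel (y : Fin n → ℝ) : S.mat s *ᵥ ((S.mat s)⁻¹ *ᵥ y) = y := by
  rw [Matrix.mulVec_mulVec, Matrix.mul_nonsing_inv _ (S.det_mat s).isUnit, Matrix.one_mulVec]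

theorem inv_out {y : Fin n → ℝ} (hy : ∀ i ∉ S.K, y i = 0) :
    ∀ i ∉ S.K, ((S.mat s)⁻¹ *ᵥ y) i = 0 := fun i hi => by
  rw [← S.mat_out s hi ((S.mat s)⁻¹ *ᵥ y), S.mat_cancel, hy i hi]

/-- The positive curvature inequality on the stratum. -/
theorem curvature_lt {v : Fin n → ℝ} (hv : ∀ i ∉ S.K, v i = 0) (hv0 : v ≠ 0) :
    v ⬝ᵥ (S.ddmat s v *ᵥ v) <
      (S.dmat s v *ᵥ v) ⬝ᵥ ((S.mat s)⁻¹ *ᵥ (S.dmat s v *ᵥ v)) := by
  set z := pt S.K s with hz
  set α := S.dmat s v *ᵥ v with hα
  set μ := (S.mat s)⁻¹ *ᵥ α with hμ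
  set a := S.tvec s v with ha
  have hzD : z ∈ S.D := S.pt_mem s
  have haX : scaleMap v z = a := by
    ext i; simp [ha, tvec, hz, mul_comm]
  set b := g₁ S.g v z *ᵥ a with hb
  have hbα : ∀ i, z i * b i = (α i : ℂ) := by
    intro i
    simp only [hb, hα, Matrix.mulVec, dotProduct, Complex.ofReal_sum, Finset.mul_sum, ha, tvec]
    refine Finset.sum_congr rfl fun j _ => ?_
    have h := Complex.re_add_im (z i * conj (z j) * g₁ S.g v z i j)
    rw [im_g₁ S.isOpen S.kahler hzD v i j, Complex.ofReal_zero, zero_mul, add_zero] at h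
    simp only [dmat, of_apply, Complex.ofReal_mul, ← hz]
    linear_combination -(v j : ℂ) * h - z i * g₁ S.g v z i j * (v j : ℂ) * pt_conj S.K s j
  have hμout : ∀ i ∉ S.K, μ i = 0 := S.inv_out s fun i hi => by
    simp [hα, Matrix.mulVec, dotProduct, S.dmat_out s v hi]
  have hgm : S.g z *ᵥ S.tvec s μ = b := by
    ext i
    by_cases hi : i ∈ S.K
    · refine mul_left_cancel₀ (S.pt_ne s hi) ?_
      rw [← S.mulVec_in s hi, hbα, hμ, S.mat_cancel]
    · have hzi : z i = 0 := S.pt_out s hi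
      simp only [hb, Matrix.mulVec, dotProduct]
      refine Finset.sum_congr rfl fun j _ => ?_
      rcases eq_or_ne i j with rfl | hij
      · simp [ha, tvec, S.pt_out s hi]
      · simp [entry_eq_zero' S.kahler hzD hij hzi, g₁_eq_zero S.isOpen S.kahler hzD hij hzi]
  have hA : form (g₁ S.g v z * (S.g z)⁻¹ * g₁ S.g v z) a a = ((α ⬝ᵥ μ : ℝ) : ℂ) := by
    have e : form (g₁ S.g v z * (S.g z)⁻¹ * g₁ S.g v z) a a = form (S.g z)⁻¹ b b := by
      simp only [hb, form_eq, star_mulVec, (g₁_isHermitian S.isOpen S.kahler hzD).eq,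
        ← Matrix.dotProduct_mulVec, Matrix.mulVec_mulVec, Matrix.mul_assoc]
    have e2 : (S.g z)⁻¹ *ᵥ b = S.tvec s μ := by
      rw [← hgm, Matrix.mulVec_mulVec,
        Matrix.nonsing_inv_mul _ (S.kahler.posDef z hzD).det_pos.ne'.isUnit, Matrix.one_mulVec]
    rw [e, form_eq, e2]
    simp only [dotProduct, Complex.ofReal_sum, Complex.ofReal_mul, tvec, Pi.star_apply]
    refine Finset.sum_congr rfl fun i _ => ?_
    have h := congrArg conj (hbα i)
    rw [map_mul, hz, pt_conj, Complex.conj_ofReal] at h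
    rw [← h, ← starRingEnd_apply, ← hz]
    ring
  have hB : (form (g₂ S.g v z) a a).re = v ⬝ᵥ (S.ddmat s v *ᵥ v) := by
    simp only [form, dotProduct, Matrix.mulVec, Complex.re_sum, Finset.mul_sum, ha, tvec]
    refine Finset.sum_congr rfl fun i _ => Finset.sum_congr rfl fun j _ => ?_
    simp only [ddmat, of_apply, ← hz, map_mul, conj_ofReal]
    rw [show conj (z i) = z i from pt_conj _ _ _, show conj (z j) = z j from pt_conj _ _ _,
      show z i * (v i : ℂ) * g₂ S.g v z i j * (z j * (v j : ℂ)) =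
        ((v i * v j : ℝ) : ℂ) * (z i * z j * g₂ S.g v z i j) by push_cast; ring,
      Complex.re_ofReal_mul]
    ring
  have h := bisec_scaleMap S.isOpen S.kahler hzD v a
  rw [hA, hB, Complex.ofReal_re] at h
  have ha0 : a ≠ 0 := S.tvec_ne s hv hv0
  have := S.pos z hzD (scaleMap v z) (star a) (by rwa [haX]) (star_ne_zero.2 ha0)
  linarith

/-- The velocity field. -/
noncomputable def vel (η : Fin n → ℝ) : Fin n → ℝ := (S.mat s)⁻¹ *ᵥ η

/-- The squared speed. -/
noncomputable def speed (η : Fin n → ℝ) : ℝ := η ⬝ᵥ S.vel s η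

/-- The cubic form of the velocity. -/
noncomputable def cubic (η : Fin n → ℝ) : ℝ :=
  S.vel s η ⬝ᵥ (S.dmat s (S.vel s η) *ᵥ S.vel s η)

/-- The derivative of the reciprocal squared speed. -/
noncomputable def slope (η : Fin n → ℝ) : ℝ := S.cubic s η / S.speed s η ^ 2

variable {η : Fin n → ℝ}

theorem contDiff_vel (η : Fin n → ℝ) : ContDiff ℝ 2 (fun s => S.vel s η) := by
  refine contDiff_pi.2 fun i => contDiff_iff_contDiffAt.2 fun s => ?_
  simp only [vel, Matrix.mulVec, dotProduct]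
  exact ContDiffAt.sum fun j _ => (contDiffAt_inv_entry
    (fun a b => (S.contDiff_mat a b).contDiffAt) (S.det_mat s) i j).mul contDiffAt_const

theorem speed_eq (hη : ∀ i ∉ S.K, η i = 0) : S.speed s η =
    (form (S.g (pt S.K s)) (S.tvec s (S.vel s η)) (S.tvec s (S.vel s η))).re := by
  rw [← S.dot_mat s (x := S.vel s η) (S.inv_out s hη), speed, vel, S.mat_cancel, dotProduct_comm]

theorem vel_ne (hη0 : η ≠ 0) : S.vel s η ≠ 0 := fun h => hη0 (by
  rw [← S.mat_cancel s η, show (S.mat s)⁻¹ *ᵥ η = 0 from h, Matrix.mulVec_zero])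

theorem speed_pos (hη : ∀ i ∉ S.K, η i = 0) (hη0 : η ≠ 0) : 0 < S.speed s η := by
  rw [S.speed_eq s hη]
  exact form_pos (S.kahler.posDef _ (S.pt_mem s)) (S.tvec_ne s (S.inv_out s hη) (S.vel_ne s hη0))

theorem slope_neg (η : Fin n → ℝ) : S.slope s (-η) = -S.slope s η := by
  have hd : ∀ v, S.dmat s (-v) = -S.dmat s v := fun v => by
    ext i j; simp [← fderiv_mat]
  simp [slope, cubic, speed, vel, Matrix.mulVec_neg, hd, Matrix.neg_mulVec, neg_div]

theorem differentiable_slope (hη : ∀ i ∉ S.K, η i = 0) (hη0 : η ≠ 0) :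
    Differentiable ℝ (fun s => S.slope s η) := by
  have hv : Differentiable ℝ (fun s => S.vel s η) := (S.contDiff_vel η).differentiable (by norm_num)
  have hv' : ∀ i, Differentiable ℝ (fun s => S.vel s η i) := fun i => differentiable_pi.1 hv i
  have hd : ∀ i j, Differentiable ℝ (fun s => S.dmat s (S.vel s η) i j) := fun i j => by
    simp only [← fderiv_mat]
    exact (((S.contDiff_mat i j).fderiv_right (m := 1) (by norm_num)).differentiable
      (by norm_num)).clm_apply hv
  simp only [slope, cubic, speed, dotProduct, Matrix.mulVec]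
  intro s
  have hn : Differentiable ℝ (fun s => ∑ i, S.vel s η i *
      ∑ j, S.dmat s (S.vel s η) i j * S.vel s η j) :=
    Differentiable.fun_sum fun i _ => (hv' i).fun_mul
      (Differentiable.fun_sum fun j _ => (hd i j).fun_mul (hv' j))
  have hs : Differentiable ℝ (fun s => ∑ i, η i * S.vel s η i) :=
    Differentiable.fun_sum fun i _ => (hv' i).const_mul (η i)
  simp only [div_eq_mul_inv]
  exact (hn s).fun_mul (((hs s).fun_pow 2).inv (pow_ne_zero _ (S.speed_pos s hη hη0).ne'))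

/-- The derivative of the velocity along itself. -/
theorem hasDerivAt_vel_line (η : Fin n → ℝ) :
    HasDerivAt (fun t : ℝ => S.vel (s + t • S.vel s η) η)
      (-((S.mat s)⁻¹ *ᵥ (S.dmat s (S.vel s η) *ᵥ S.vel s η))) 0 := by
  set σ := S.vel s η with hσ
  obtain ⟨W, hW⟩ : ∃ W, HasDerivAt (fun t : ℝ => S.vel (s + t • σ) η) W 0 :=
    ⟨_, (((S.contDiff_vel η).differentiable (by norm_num)).comp
      (fun t => (hasDerivAt_line s σ t).differentiableAt) 0).hasDerivAt⟩
  refine hW.congr_deriv ?_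
  have key : S.mat s *ᵥ W = -(S.dmat s σ *ᵥ σ) := by
    ext i
    have h1 : HasDerivAt (fun t : ℝ => ∑ j, S.mat (s + t • σ) i j * S.vel (s + t • σ) η j)
        (∑ j, (S.dmat s σ i j * σ j + S.mat s i j * W j)) 0 := by
      refine HasDerivAt.fun_sum fun j _ => ?_
      have := (S.hasDerivAt_mat_line s σ i j 0).fun_mul (hasDerivAt_pi.1 hW j)
      simpa [← hσ] using this
    have h2 : HasDerivAt (fun t : ℝ => ∑ j, S.mat (s + t • σ) i j * S.vel (s + t • σ) η j) 0 0 :=
      (hasDerivAt_const (0 : ℝ) (η i)).congr_of_eventuallyEq (Eventually.of_forall fun t =>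
        congrFun (S.mat_cancel (s + t • σ) η) i)
    have e := h1.unique h2
    rw [Finset.sum_add_distrib] at e
    simp only [Matrix.mulVec, dotProduct, Pi.neg_apply]
    linarith
  have := congrArg (fun x => (S.mat s)⁻¹ *ᵥ x) key
  simpa [Matrix.mulVec_mulVec, Matrix.nonsing_inv_mul _ (S.det_mat s).isUnit,
    Matrix.mulVec_neg] using this

theorem mat_symm (i j : Fin n) : S.mat s i j = S.mat s j i := by
  simp only [mat, of_apply]
  congr 1
  · rw [← Complex.conj_re, map_mul, map_mul, conj_conj,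
      show conj (S.g (pt S.K s) i j) = S.g (pt S.K s) j i from
        (S.kahler.posDef _ (S.pt_mem s)).1.apply j i, mul_comm (conj _)]
  · rcases eq_or_ne i j with rfl | h
    · rfl
    · simp [h, h.symm]

theorem dot_inv (y : Fin n → ℝ) : η ⬝ᵥ ((S.mat s)⁻¹ *ᵥ y) = S.vel s η ⬝ᵥ y := by
  have ht : (S.mat s)ᵀ = S.mat s := Matrix.ext fun i j => S.mat_symm s j i
  rw [vel, Matrix.dotProduct_mulVec, ← Matrix.mulVec_transpose, Matrix.transpose_nonsing_inv, ht]

theorem hasDerivAt_speed_line (η : Fin n → ℝ) :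
    HasDerivAt (fun t : ℝ => S.speed (s + t • S.vel s η) η) (-S.cubic s η) 0 := by
  have h : HasDerivAt (fun t : ℝ => S.speed (s + t • S.vel s η) η)
      (∑ i, η i * (-((S.mat s)⁻¹ *ᵥ (S.dmat s (S.vel s η) *ᵥ S.vel s η))) i) 0 := by
    simp only [speed, dotProduct]
    exact HasDerivAt.fun_sum fun i _ => (hasDerivAt_pi.1 (S.hasDerivAt_vel_line s η) i).const_mul (η i)
  refine h.congr_deriv ?_
  change η ⬝ᵥ _ = _
  rw [dotProduct_neg, dot_inv]
  rfl

theorem hasDerivAt_cubic_line (η : Fin n → ℝ) :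
    HasDerivAt (fun t : ℝ => S.cubic (s + t • S.vel s η) η)
      (S.vel s η ⬝ᵥ (S.ddmat s (S.vel s η) *ᵥ S.vel s η) -
        3 * ((S.dmat s (S.vel s η) *ᵥ S.vel s η) ⬝ᵥ
          ((S.mat s)⁻¹ *ᵥ (S.dmat s (S.vel s η) *ᵥ S.vel s η)))) 0 := by
  set σ := S.vel s η with hσ
  set α := S.dmat s σ *ᵥ σ with hα
  set W := -((S.mat s)⁻¹ *ᵥ α) with hW
  have hv := hasDerivAt_pi.1 (S.hasDerivAt_vel_line s η)
  have hd : ∀ i j, HasDerivAt (fun t : ℝ => S.dmat (s + t • σ) (S.vel (s + t • σ) η) i j)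
      (S.ddmat s σ i j + S.dmat s W i j) 0 := by
    intro i j
    have h1 := (((S.contDiff_mat i j).fderiv_right (m := 1) (by norm_num)).differentiable
      (by norm_num) s).hasFDerivAt.comp_hasDerivAt_of_eq 0 (hasDerivAt_line s σ 0) (by simp)
    have h2 := h1.clm_apply (S.hasDerivAt_vel_line s η)
    simp only [Function.comp_apply, zero_smul, add_zero, fderiv_mat, ← hσ, ← hα, ← hW,
      fderiv₂_mat] at h2
    exact h2
  have h : HasDerivAt (fun t : ℝ => S.cubic (s + t • σ) η)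
      (∑ i, (W i * ∑ j, S.dmat s σ i j * σ j +
        σ i * ∑ j, ((S.ddmat s σ i j + S.dmat s W i j) * σ j + S.dmat s σ i j * W j))) 0 := by
    simp only [cubic, dotProduct, Matrix.mulVec]
    refine HasDerivAt.fun_sum fun i _ => ?_
    have h2 : HasDerivAt (fun t : ℝ =>
        ∑ j, S.dmat (s + t • σ) (S.vel (s + t • σ) η) i j * S.vel (s + t • σ) η j)
        (∑ j, ((S.ddmat s σ i j + S.dmat s W i j) * σ j + S.dmat s σ i j * W j)) 0 := by
      refine HasDerivAt.fun_sum fun j _ => ?_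
      have := (hd i j).fun_mul (hv j)
      simp only [zero_smul, add_zero, ← hσ, ← hα, ← hW] at this
      exact this
    have := (hv i).fun_mul h2
    simp only [zero_smul, add_zero, ← hσ, ← hα, ← hW] at this
    exact this
  refine h.congr_deriv ?_
  have e1 : ∑ i, ∑ j, σ i * (S.dmat s W i j * σ j) = α ⬝ᵥ W := by
    simp only [hα, dotProduct, Matrix.mulVec]
    calc ∑ i, ∑ j, σ i * (S.dmat s W i j * σ j)
        = ∑ i, ∑ j, ∑ k, σ i * (W k * S.dmat s (Pi.single k 1) i j * σ j) := by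
          refine Finset.sum_congr rfl fun i _ => Finset.sum_congr rfl fun j _ => ?_
          rw [S.dmat_sum s W i j, Finset.sum_mul, Finset.mul_sum]
      _ = ∑ k, ∑ j, ∑ i, σ i * (W k * S.dmat s (Pi.single k 1) i j * σ j) := by
          rw [Finset.sum_comm]
          conv_lhs => arg 2; ext j; rw [Finset.sum_comm]
          rw [Finset.sum_comm]
      _ = ∑ k, (∑ j, S.dmat s σ k j * σ j) * W k := by
          refine Finset.sum_congr rfl fun k _ => ?_
          rw [Finset.sum_mul]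
          refine Finset.sum_congr rfl fun j _ => ?_
          rw [S.dmat_sum s σ k j, Finset.sum_mul, Finset.sum_mul]
          refine Finset.sum_congr rfl fun i _ => ?_
          rw [S.dmat_sym₃ s i j k]
          ring
  have e2 : ∑ i, ∑ j, σ i * (S.dmat s σ i j * W j) = α ⬝ᵥ W := by
    simp only [hα, dotProduct, Matrix.mulVec, Finset.sum_mul]
    rw [Finset.sum_comm]
    refine Finset.sum_congr rfl fun i _ => Finset.sum_congr rfl fun j _ => ?_
    rw [S.dmat_symm s σ j i]
    ring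
  have e3 : ∑ i, W i * ∑ j, S.dmat s σ i j * σ j = α ⬝ᵥ W := by
    simp only [hα, dotProduct, Matrix.mulVec]
    exact Finset.sum_congr rfl fun i _ => mul_comm _ _
  have e4 : ∑ i, ∑ j, σ i * (S.ddmat s σ i j * σ j) = σ ⬝ᵥ (S.ddmat s σ *ᵥ σ) := by
    simp only [dotProduct, Matrix.mulVec, Finset.mul_sum]
  have e5 : α ⬝ᵥ W = -(α ⬝ᵥ ((S.mat s)⁻¹ *ᵥ α)) := by rw [hW, dotProduct_neg]
  simp only [Finset.sum_add_distrib, add_mul, mul_add, Finset.mul_sum] at e3 ⊢
  rw [e1, e2, e3, e4, e5]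
  ring

theorem slope_deriv_neg (hη : ∀ i ∉ S.K, η i = 0) (hη0 : η ≠ 0) :
    fderiv ℝ (fun s => S.slope s η) s (S.vel s η) < 0 := by
  set σ := S.vel s η with hσ
  set α := S.dmat s σ *ᵥ σ with hα
  set μ := (S.mat s)⁻¹ *ᵥ α with hμ
  have hF := S.speed_pos s hη hη0
  have h : HasDerivAt (fun t : ℝ => S.slope (s + t • σ) η)
      (((σ ⬝ᵥ (S.ddmat s σ *ᵥ σ) - 3 * (α ⬝ᵥ μ)) * S.speed s η ^ 2 -
        S.cubic s η * (2 * S.speed s η * -S.cubic s η)) / (S.speed s η ^ 2) ^ 2) 0 := by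
    have := (S.hasDerivAt_cubic_line s η).fun_div ((S.hasDerivAt_speed_line s η).fun_pow 2)
      (by simpa using (pow_ne_zero 2 hF.ne'))
    simpa [slope, ← hσ, ← hα, ← hμ] using this
  rw [((S.differentiable_slope hη hη0 s).hasFDerivAt.comp_hasDerivAt_of_eq 0
    (hasDerivAt_line s σ 0) (by simp)).unique h]
  refine div_neg_of_neg_of_pos ?_ (by positivity)
  have hσout : ∀ i ∉ S.K, σ i = 0 := S.inv_out s hη
  have hc := S.curvature_lt s hσout (S.vel_ne s hη0)
  have hμout : ∀ i ∉ S.K, μ i = 0 := S.inv_out s fun i hi => by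
    simp [hα, Matrix.mulVec, dotProduct, S.dmat_out s σ hi]
  have hcs := form_cs (S.kahler.posDef _ (S.pt_mem s)) (S.tvec s σ) (S.tvec s μ)
  rw [← S.dot_mat s hσout, ← S.dot_mat s hμout, ← S.speed_eq s hη, hμ, S.mat_cancel,
    show σ ⬝ᵥ α = S.cubic s η from rfl, dotProduct_comm ((S.mat s)⁻¹ *ᵥ α) α, ← hμ] at hcs
  rw [← hα, ← hμ] at hc
  nlinarith [mul_lt_mul_of_pos_right hc (pow_pos hF 2), mul_le_mul_of_nonneg_left hcs hF.le]

end StratumData

end Vale.Agent.P253
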