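import Vale.Agent.P253.Matrix

/-! Derivatives of an invariant metric along logarithmic rays, and the curvature inequality. -/

namespace Vale.Agent.P253

open Complex ComplexConjugate Matrix Topology Filter Set
open scoped ComplexOrder

variable {n : ℕ} {D : Set (Fin n → ℂ)} {g : (Fin n → ℂ) → Matrix (Fin n) (Fin n) ℂ}
  {z : Fin n → ℂ} {v : Fin n → ℝ}

/-- Coordinatewise multiplication by a real vector. -/
noncomputable def scaleMap (v : Fin n → ℝ) : (Fin n → ℂ) →L[ℝ] (Fin n → ℂ) :=
  ContinuousLinearMap.pi fun i => v i • ContinuousLinearMap.proj i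

@[simp] theorem scaleMap_apply (v : Fin n → ℝ) (w : Fin n → ℂ) (i : Fin n) :
    scaleMap v w i = (v i : ℂ) * w i := by
  simp [scaleMap]

/-- The ray `exp (t v) * z`. -/
noncomputable def ray (v : Fin n → ℝ) (z : Fin n → ℂ) (t : ℝ) : Fin n → ℂ :=
  fun i => (Real.exp (t * v i) : ℂ) * z i

theorem hasDerivAt_ray (v : Fin n → ℝ) (z : Fin n → ℂ) (t : ℝ) :
    HasDerivAt (ray v z) (scaleMap v (ray v z t)) t := by
  refine hasDerivAt_pi.2 fun i => ?_
  simp only [scaleMap_apply, ray]
  have h := (((hasDerivAt_id' t).mul_const (v i)).exp.ofReal_comp).mul_const (z i)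
  refine h.congr_deriv ?_
  push_cast; ring

@[simp] theorem ray_zero (v : Fin n → ℝ) (z : Fin n → ℂ) : ray v z 0 = z := by
  ext i; simp [ray]

/-- First derivative of the congruent matrix `exp(t v) g exp(t v)` at `t = 0`. -/
noncomputable def g₁ (g : (Fin n → ℂ) → Matrix (Fin n) (Fin n) ℂ) (v : Fin n → ℝ) (z : Fin n → ℂ) :
    Matrix (Fin n) (Fin n) ℂ :=
  of fun i j => fderiv ℝ (fun u => g u i j) z (scaleMap v z) + ((v i : ℂ) + v j) * g z i j

/-- Second derivative of the same matrix. -/
noncomputable def g₂ (g : (Fin n → ℂ) → Matrix (Fin n) (Fin n) ℂ) (v : Fin n → ℝ) (z : Fin n → ℂ) :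
    Matrix (Fin n) (Fin n) ℂ :=
  of fun i j => fderiv ℝ (fderiv ℝ (fun u => g u i j)) z (scaleMap v z) (scaleMap v z) +
    fderiv ℝ (fun u => g u i j) z (scaleMap v (scaleMap v z)) +
    2 * ((v i : ℂ) + v j) * fderiv ℝ (fun u => g u i j) z (scaleMap v z) +
    ((v i : ℂ) + v j) ^ 2 * g z i j

theorem contDiffAt_entry (hD : IsOpen D) (hg : IsInvariantKahler D g) (hz : z ∈ D) (i j : Fin n) :
    ContDiffAt ℝ 2 (fun u => g u i j) z :=
  (hg.smooth i j).contDiffAt (hD.mem_nhds hz)

theorem differentiableAt_entry (hD : IsOpen D) (hg : IsInvariantKahler D g) (hz : z ∈ D)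
    (i j : Fin n) : DifferentiableAt ℝ (fun u => g u i j) z :=
  (contDiffAt_entry hD hg hz i j).differentiableAt (by norm_num)

theorem hasFDerivAt_fderiv_entry (hD : IsOpen D) (hg : IsInvariantKahler D g) (hz : z ∈ D)
    (i j : Fin n) : HasFDerivAt (fderiv ℝ fun u => g u i j)
      (fderiv ℝ (fderiv ℝ fun u => g u i j) z) z :=
  (((contDiffAt_entry hD hg hz i j).fderiv_right (m := 1) (by norm_num)).differentiableAt
    (by norm_num)).hasFDerivAt

/-- Torus invariance, differentiated once. -/
theorem fderiv_rot (hD : IsOpen D) (hg : IsInvariantKahler D g) (hz : z ∈ D) (v : Fin n → ℝ)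
    (i j : Fin n) : fderiv ℝ (fun u => g u i j) z (I • scaleMap v z) =
      -(I * ((v i : ℂ) - v j)) * g z i j := by
  let r : ℝ → Fin n → ℂ := fun θ k => exp ((θ * v k : ℝ) * I) * z k
  have hr : HasDerivAt r (I • scaleMap v z) 0 := by
    refine hasDerivAt_pi.2 fun k => ?_
    have h := ((((hasDerivAt_id' (0 : ℝ)).mul_const (v k)).ofReal_comp.mul_const I).cexp).mul_const
      (z k)
    refine h.congr_deriv ?_
    simp; ring
  have r0 : r 0 = z := by ext k; simp [r]
  have h1 : HasDerivAt (fun θ => g (r θ) i j) (fderiv ℝ (fun u => g u i j) z (I • scaleMap v z)) 0 :=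
    (differentiableAt_entry hD hg hz i j).hasFDerivAt.comp_hasDerivAt_of_eq 0 hr r0.symm
  have h2 : ∀ θ : ℝ, g (r θ) i j = exp (-((θ * (v i - v j) : ℝ) * I)) * g z i j := by
    intro θ
    have := hg.invariant z hz (fun k => exp ((θ * v k : ℝ) * I))
      (fun k => norm_exp_ofReal_mul_I _) i j
    change exp ((θ * v i : ℝ) * I) * g (r θ) i j * conj (exp ((θ * v j : ℝ) * I)) = g z i j at this
    rw [← exp_conj, map_mul, conj_ofReal, conj_I] at this
    have h0 : exp (-((θ * (v i - v j) : ℝ) * I)) *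
        (exp ((θ * v i : ℝ) * I) * exp ((θ * v j : ℝ) * -I)) = 1 := by
      rw [← exp_add, ← exp_add, ← exp_zero]
      congr 1
      push_cast; ring
    linear_combination exp (-((θ * (v i - v j) : ℝ) * I)) * this - g (r θ) i j * h0
  have h3 := (((((hasDerivAt_id' (0 : ℝ)).mul_const (v i - v j)).ofReal_comp.mul_const I).neg.cexp
    ).mul_const (g z i j))
  rw [show (fun θ => g (r θ) i j) = fun θ => exp (-((θ * (v i - v j) : ℝ) * I)) * g z i j from
    funext h2] at h1
  refine (h1.unique (h3.congr_deriv ?_))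
  simp
  left; ring

/-- Torus invariance, differentiated twice. -/
theorem fderiv₂_rot (hD : IsOpen D) (hg : IsInvariantKahler D g) (hz : z ∈ D) (v : Fin n → ℝ)
    (i j : Fin n) :
    fderiv ℝ (fderiv ℝ fun u => g u i j) z (I • scaleMap v z) (I • scaleMap v z) =
      fderiv ℝ (fun u => g u i j) z (scaleMap v (scaleMap v z)) -
        ((v i : ℂ) - v j) ^ 2 * g z i j := by
  set X := I • scaleMap v z with hX
  let L : (Fin n → ℂ) →L[ℝ] (Fin n → ℂ) := (I : ℂ) • scaleMap v
  have h1 := (hasFDerivAt_fderiv_entry hD hg hz i j).clm_apply (L.hasFDerivAt (x := z))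
  have h2 : HasFDerivAt (fun y => fderiv ℝ (fun u => g u i j) y (L y))
      ((-(I * ((v i : ℂ) - v j))) • fderiv ℝ (fun u => g u i j) z) z := by
    refine ((differentiableAt_entry hD hg hz i j).hasFDerivAt.const_mul _).congr_of_eventuallyEq ?_
    filter_upwards [hD.mem_nhds hz] with y hy
    exact fderiv_rot hD hg hy v i j
  have h3 := congrArg (fun T : (Fin n → ℂ) →L[ℝ] ℂ => T X) (h1.unique h2)
  have hL : L z = X := rfl
  have hLX : L X = -scaleMap v (scaleMap v z) := by
    ext k
    simp [L, X]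
    linear_combination (v k : ℂ) * ((v k : ℂ) * z k) * I_mul_I
  simp only [ContinuousLinearMap.add_apply, ContinuousLinearMap.coe_comp, Function.comp_apply,
    ContinuousLinearMap.flip_apply, hL, hLX, map_neg, ContinuousLinearMap.smul_apply, smul_eq_mul,
    hX ▸ fderiv_rot hD hg hz v i j] at h3
  linear_combination h3 + ((v i : ℂ) - v j) ^ 2 * g z i j * I_mul_I

theorem dz_entry (hD : IsOpen D) (hg : IsInvariantKahler D g) (hz : z ∈ D) (v : Fin n → ℝ)
    (i j : Fin n) :
    dz (fun u => g u i j) z (scaleMap v z) = g₁ g v z i j / 2 - v i * g z i j := by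
  rw [dz, fderiv_rot hD hg hz v i j, g₁, of_apply]
  linear_combination ((v i : ℂ) - v j) / 2 * g z i j * I_mul_I

theorem g₁_isHermitian (hD : IsOpen D) (hg : IsInvariantKahler D g) (hz : z ∈ D) :
    (g₁ g v z).IsHermitian := by
  refine Matrix.IsHermitian.ext fun i j => ?_
  have e : (fun u => g u i j) =ᶠ[𝓝 z] fun u => conj (g u j i) := by
    filter_upwards [hD.mem_nhds hz] with u hu
    exact ((hg.posDef u hu).1.apply i j).symm
  have h := Complex.conjCLE.toContinuousLinearMap.hasFDerivAt.comp z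
    (differentiableAt_entry hD hg hz j i).hasFDerivAt
  have e2 : fderiv ℝ (fun u => g u i j) z =
      Complex.conjCLE.toContinuousLinearMap.comp (fderiv ℝ (fun u => g u j i) z) :=
    (h.congr_of_eventuallyEq e).fderiv
  simp only [g₁, of_apply, e2, ContinuousLinearMap.coe_comp, Function.comp_apply,
    ← (hg.posDef z hz).1.apply i j, ← starRingEnd_apply, map_add, map_mul, conj_ofReal]
  simp [add_comm]

/-- The second mixed derivative of one coefficient in the direction `v * z`. -/
theorem ddbar_entry (hD : IsOpen D) (hg : IsInvariantKahler D g) (hz : z ∈ D) (v : Fin n → ℝ)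
    (i j : Fin n) :
    (fderiv ℝ (fderiv ℝ fun u => g u i j) z (scaleMap v z) (scaleMap v z) +
      fderiv ℝ (fderiv ℝ fun u => g u i j) z (I • scaleMap v z) (I • scaleMap v z)) / 4 =
    (g₂ g v z i j - 2 * ((v i : ℂ) + v j) * g₁ g v z i j + 4 * v i * v j * g z i j) / 4 := by
  rw [fderiv₂_rot hD hg hz v i j, g₁, g₂, of_apply, of_apply]
  ring

/-- The curvature of an invariant metric in a real logarithmic direction. -/
theorem bisec_scaleMap (hD : IsOpen D) (hg : IsInvariantKahler D g) (hz : z ∈ D) (v : Fin n → ℝ)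
    (a : Fin n → ℂ) :
    4 * bisec g z (scaleMap v z) (star a) =
      (form (g₁ g v z * (g z)⁻¹ * g₁ g v z) a a).re - (form (g₂ g v z) a a).re := by
  set X := scaleMap v z with hX
  have hdd : dzbar (fun y => dz (fun u => ∑ i, ∑ j, star a i * g u i j * conj (star a j)) y X) z X =
      form (of fun i j => (g₂ g v z i j - 2 * ((v i : ℂ) + v j) * g₁ g v z i j +
        4 * v i * v j * g z i j) / 4) a a := by
    let Φ : (Fin n → ℂ) → (Fin n → ℂ) →L[ℝ] ℂ := fun y =>
      ∑ i, ∑ j, (conj (a i) * a j) • fderiv ℝ (fun u => g u i j) y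
    let Φ' := ∑ i, ∑ j, (conj (a i) * a j) • fderiv ℝ (fderiv ℝ fun u => g u i j) z
    have e1 : ∀ y ∈ D,
        fderiv ℝ (fun u => ∑ i, ∑ j, star a i * g u i j * conj (star a j)) y = Φ y := by
      intro y hy
      refine HasFDerivAt.fderiv ?_
      refine HasFDerivAt.fun_sum fun i _ => HasFDerivAt.fun_sum fun j _ => ?_
      have := ((differentiableAt_entry hD hg hy i j).hasFDerivAt).const_mul (conj (a i) * a j)
      refine this.congr_of_eventuallyEq (Eventually.of_forall fun u => ?_)
      simp; ring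
    have e2 : HasFDerivAt Φ Φ' z := HasFDerivAt.fun_sum fun i _ => HasFDerivAt.fun_sum fun j _ =>
      (hasFDerivAt_fderiv_entry hD hg hz i j).fun_const_smul (conj (a i) * a j)
    have e3 : HasFDerivAt (fun y => dz (fun u => ∑ i, ∑ j, star a i * g u i j * conj (star a j)) y X)
        ((2 : ℂ)⁻¹ • (Φ'.flip X - I • Φ'.flip (I • X))) z := by
      have := ((e2.clm_apply (hasFDerivAt_const X z)).sub
        ((e2.clm_apply (hasFDerivAt_const (I • X) z)).const_mul I)).const_mul (2 : ℂ)⁻¹
      refine (this.congr_fderiv (by simp)).congr_of_eventuallyEq ?_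
      filter_upwards [hD.mem_nhds hz] with y hy
      simp only [dz, e1 y hy, Pi.sub_apply]
      ring
    rw [dzbar, e3.fderiv]
    simp only [Φ', ContinuousLinearMap.smul_apply, ContinuousLinearMap.sub_apply,
      ContinuousLinearMap.flip_apply, ContinuousLinearMap.sum_apply, smul_eq_mul, form, of_apply]
    rw [Finset.sum_congr rfl fun i _ => Finset.sum_congr rfl fun j _ =>
      (congrArg (fun c => conj (a i) * c * a j) (ddbar_entry hD hg hz v i j)).symm]
    simp only [mul_add, mul_sub, Finset.mul_sum, ← Finset.sum_add_distrib, ← Finset.sum_sub_distrib,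
      Finset.sum_div, hX]
    refine Finset.sum_congr rfl fun i _ => Finset.sum_congr rfl fun j _ => ?_
    have hs := ((contDiffAt_entry hD hg hz i j).isSymmSndFDerivAt (by simp)).eq
      (scaleMap v z) (I • scaleMap v z)
    rw [hs]
    linear_combination (-(conj (a i) * a j) / 4 *
      fderiv ℝ (fderiv ℝ fun u => g u i j) z (I • scaleMap v z) (I • scaleMap v z)) * I_mul_I
  set b := g₁ g v z *ᵥ a with hb
  set c : Fin n → ℂ := fun i => (v i : ℂ) * a i with hc
  have hq : ∀ p, conj (∑ i, star a i * dz (fun u => g u i p) z X) =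
      b p / 2 - (g z *ᵥ c) p := by
    intro p
    simp only [map_sum, map_mul, hX, dz_entry hD hg hz, map_sub, map_div₀, map_ofNat, conj_ofReal, hb, hc,
      Matrix.mulVec, dotProduct, Finset.sum_div, ← Finset.sum_sub_distrib]
    refine Finset.sum_congr rfl fun i _ => ?_
    rw [← (g₁_isHermitian (v := v) hD hg hz).apply p i, ← (hg.posDef z hz).1.apply p i]
    simp; ring
  have hq' : ∀ p, (∑ i, star a i * dz (fun u => g u i p) z X) =
      conj (b p / 2 - (g z *ᵥ c) p) := fun p => by rw [← hq, conj_conj]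
  have hT : ∑ q, ∑ p, (∑ i, star a i * dz (fun u => g u i q) z X) * (g z)⁻¹ q p *
      conj (∑ i, star a i * dz (fun u => g u i p) z X) =
      form (g z)⁻¹ b b / 4 - form (g₁ g v z) a c / 2 - form (g₁ g v z) c a / 2 + form (g z) c c := by
    have hdet : IsUnit (g z).det := (hg.posDef z hz).det_pos.ne'.isUnit
    simp only [hq', conj_conj]
    have e : ∑ q, ∑ p, conj (b q / 2 - (g z *ᵥ c) q) * (g z)⁻¹ q p * (b p / 2 - (g z *ᵥ c) p) =
        form (g z)⁻¹ b b / 4 - form (g z)⁻¹ b (g z *ᵥ c) / 2 - form (g z)⁻¹ (g z *ᵥ c) b / 2 +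
          form (g z)⁻¹ (g z *ᵥ c) (g z *ᵥ c) := by
      simp only [form, Finset.sum_div, ← Finset.sum_sub_distrib, ← Finset.sum_add_distrib]
      refine Finset.sum_congr rfl fun i _ => Finset.sum_congr rfl fun j _ => ?_
      simp [map_ofNat]; ring
    rw [e, hb]
    simp only [form_eq, star_mulVec, (hg.posDef z hz).1.eq, (g₁_isHermitian hD hg hz).eq,
      ← Matrix.dotProduct_mulVec, Matrix.mulVec_mulVec, Matrix.mul_nonsing_inv_cancel_left _ _ hdet,
      Matrix.nonsing_inv_mul _ hdet, Matrix.mul_one, Matrix.one_mul]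
  have hE : form (of fun i j => (g₂ g v z i j - 2 * ((v i : ℂ) + v j) * g₁ g v z i j +
        4 * v i * v j * g z i j) / 4) a a =
      form (g₂ g v z) a a / 4 - form (g₁ g v z) c a / 2 - form (g₁ g v z) a c / 2 +
        form (g z) c c := by
    simp only [form, of_apply, hc, map_mul, conj_ofReal, Finset.sum_div, ← Finset.sum_sub_distrib,
      ← Finset.sum_add_distrib]
    refine Finset.sum_congr rfl fun i _ => Finset.sum_congr rfl fun j _ => ?_
    ring
  have hB : form (g z)⁻¹ b b = form (g₁ g v z * (g z)⁻¹ * g₁ g v z) a a := by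
    simp only [hb, form_eq, star_mulVec, (g₁_isHermitian hD hg hz).eq,
      ← Matrix.dotProduct_mulVec, Matrix.mulVec_mulVec, Matrix.mul_assoc]
  rw [bisec, hdd, hT, hE, hB]
  simp; ring

end Vale.Agent.P253
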