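import Vale.Agent.P253.Ray

/-! Nonnegative curvature and completeness make the domain invariant under positive scalings. -/

namespace Vale.Agent.P253

open Complex ComplexConjugate Matrix Topology Filter Set
open scoped ComplexOrder

variable {n : ℕ} {D : Set (Fin n → ℂ)} {g : (Fin n → ℂ) → Matrix (Fin n) (Fin n) ℂ}
  {z : Fin n → ℂ} {v : Fin n → ℝ}

theorem sqLength_eq (g : (Fin n → ℂ) → Matrix (Fin n) (Fin n) ℂ) (z X : Fin n → ℂ) :
    sqLength g z X = (form (g z) (star X) (star X)).re := by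
  simp [sqLength, form]

theorem hasDerivAt_g_ray (hD : IsOpen D) (hg : IsInvariantKahler D g) {t : ℝ}
    (ht : ray v z t ∈ D) (i j : Fin n) :
    HasDerivAt (fun s => g (ray v z s) i j)
      (g₁ g v (ray v z t) i j - ((v i : ℂ) + v j) * g (ray v z t) i j) t := by
  refine ((differentiableAt_entry hD hg ht i j).hasFDerivAt.comp_hasDerivAt t
    (hasDerivAt_ray v z t)).congr_deriv ?_
  simp [g₁]

theorem hasDerivAt_g₁_ray (hD : IsOpen D) (hg : IsInvariantKahler D g) {t : ℝ}
    (ht : ray v z t ∈ D) (i j : Fin n) :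
    HasDerivAt (fun s => g₁ g v (ray v z s) i j)
      (g₂ g v (ray v z t) i j - ((v i : ℂ) + v j) * g₁ g v (ray v z t) i j) t := by
  have h1 := ((hasFDerivAt_fderiv_entry hD hg ht i j).clm_apply
    ((scaleMap v).hasFDerivAt)).comp_hasDerivAt t (hasDerivAt_ray v z t)
  have h2 := ((differentiableAt_entry hD hg ht i j).hasFDerivAt.comp_hasDerivAt t
    (hasDerivAt_ray v z t)).const_mul ((v i : ℂ) + v j)
  refine ((h1.add h2).congr_of_eventuallyEq (Eventually.of_forall fun s => rfl)).congr_deriv ?_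
  simp [g₁, g₂]
  ring

theorem form_shift (M : Matrix (Fin n) (Fin n) ℂ) (v : Fin n → ℝ) (a b : Fin n → ℂ) :
    form M (fun i => (v i : ℂ) * a i) b + form M a (fun i => (v i : ℂ) * b i) =
      form (of fun i j => ((v i : ℂ) + v j) * M i j) a b := by
  simp only [form, of_apply, map_mul, conj_ofReal, ← Finset.sum_add_distrib]
  refine Finset.sum_congr rfl fun i _ => Finset.sum_congr rfl fun j _ => ?_
  ring

theorem form_sub_left (M : Matrix (Fin n) (Fin n) ℂ) (a a' b : Fin n → ℂ) :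
    form M (a - a') b = form M a b - form M a' b := by
  simp [form_eq, sub_dotProduct]

theorem form_sub_right (M : Matrix (Fin n) (Fin n) ℂ) (a b b' : Fin n → ℂ) :
    form M a (b - b') = form M a b - form M a b' := by
  simp [form_eq, Matrix.mulVec_sub, dotProduct_sub]

theorem form_sub_mat (M N : Matrix (Fin n) (Fin n) ℂ) (a b : Fin n → ℂ) :
    form (M - N) a b = form M a b - form N a b := by
  simp [form_eq, Matrix.sub_mulVec, dotProduct_sub]

/-- The covector carried along the ray. -/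
noncomputable def covec (v : Fin n → ℝ) (w : Fin n → ℂ) (t : ℝ) : Fin n → ℂ :=
  fun i => (Real.exp (-(t * v i)) : ℂ) * w i

/-- The dual vector of the carried covector. -/
noncomputable def dual (g : (Fin n → ℂ) → Matrix (Fin n) (Fin n) ℂ) (v : Fin n → ℝ)
    (z w : Fin n → ℂ) (t : ℝ) : Fin n → ℂ :=
  (g (ray v z t))⁻¹ *ᵥ covec v w t

theorem g_mulVec_dual (hg : IsInvariantKahler D g) {t : ℝ} (ht : ray v z t ∈ D) (w : Fin n → ℂ) :
    g (ray v z t) *ᵥ dual g v z w t = covec v w t := by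
  rw [dual, Matrix.mulVec_mulVec, Matrix.mul_nonsing_inv _ (hg.posDef _ ht).det_pos.ne'.isUnit,
    Matrix.one_mulVec]

theorem hasDerivAt_dual (hD : IsOpen D) (hg : IsInvariantKahler D g) {t : ℝ}
    (ht : ray v z t ∈ D) (w : Fin n → ℂ) :
    HasDerivAt (dual g v z w) ((fun i => (v i : ℂ) * dual g v z w t i) -
      ((g (ray v z t))⁻¹ * g₁ g v (ray v z t)) *ᵥ dual g v z w t) t := by
  set y := ray v z t with hy
  set u := dual g v z w t with hu
  have hev : ∀ᶠ s in 𝓝 t, ray v z s ∈ D :=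
    (hasDerivAt_ray v z t).continuousAt.preimage_mem_nhds (hD.mem_nhds ht)
  have hc : ∀ i, HasDerivAt (fun s => covec v w s i) (-(v i : ℂ) * covec v w t i) t := by
    intro i
    simp only [covec]
    refine ((((hasDerivAt_id' t).mul_const (v i)).neg.exp.ofReal_comp).mul_const (w i)).congr_deriv ?_
    simp; ring
  have hd : ∀ i, DifferentiableAt ℝ (fun s => dual g v z w s i) t := by
    intro i
    simp only [dual, Matrix.mulVec, dotProduct]
    refine DifferentiableAt.fun_sum fun j _ => DifferentiableAt.mul ?_ (hc j).differentiableAt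
    exact ((contDiffAt_inv_entry (fun a b => contDiffAt_entry hD hg ht a b)
      (hg.posDef y ht).det_pos.ne' i j).differentiableAt (by norm_num)).comp t
      (hasDerivAt_ray v z t).differentiableAt
  obtain ⟨U, hU⟩ : ∃ U, HasDerivAt (dual g v z w) U t :=
    ⟨fun i => deriv (fun s => dual g v z w s i) t, hasDerivAt_pi.2 fun i => (hd i).hasDerivAt⟩
  have key : g y *ᵥ (U - fun i => (v i : ℂ) * u i) = -(g₁ g v y *ᵥ u) := by
    ext i
    have h1 : HasDerivAt (fun s => ∑ j, g (ray v z s) i j * dual g v z w s j)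
        (∑ j, ((g₁ g v y i j - ((v i : ℂ) + v j) * g y i j) * u j + g y i j * U j)) t :=
      HasDerivAt.fun_sum fun j _ => (hasDerivAt_g_ray hD hg ht i j).mul (hasDerivAt_pi.1 hU j)
    have h2 : HasDerivAt (fun s => ∑ j, g (ray v z s) i j * dual g v z w s j)
        (-(v i : ℂ) * covec v w t i) t := by
      refine (hc i).congr_of_eventuallyEq ?_
      filter_upwards [hev] with s hs
      rw [← g_mulVec_dual hg hs w]; rfl
    have e := h1.unique h2
    rw [← g_mulVec_dual hg ht w, ← hu, ← hy] at e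
    simp only [Matrix.mulVec, dotProduct, Pi.sub_apply, Pi.neg_apply, Finset.mul_sum] at e ⊢
    rw [← sub_eq_zero] at e ⊢
    rw [← e, ← Finset.sum_sub_distrib, sub_neg_eq_add, ← Finset.sum_add_distrib]
    refine Finset.sum_congr rfl fun j _ => ?_
    ring
  refine hU.congr_deriv ?_
  have := congrArg (fun x => (g y)⁻¹ *ᵥ x) key
  simp only [Matrix.mulVec_mulVec, Matrix.nonsing_inv_mul _ (hg.posDef y ht).det_pos.ne'.isUnit,
    Matrix.one_mulVec, Matrix.mulVec_neg] at this
  rw [sub_eq_iff_eq_add.1 this]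
  abel

/-- Squared norm of the carried covector. -/
noncomputable def dualSq (g : (Fin n → ℂ) → Matrix (Fin n) (Fin n) ℂ) (v : Fin n → ℝ)
    (z w : Fin n → ℂ) (t : ℝ) : ℝ :=
  (form (g (ray v z t)) (dual g v z w t) (dual g v z w t)).re

/-- The derivative of `dualSq`. -/
noncomputable def dualSq' (g : (Fin n → ℂ) → Matrix (Fin n) (Fin n) ℂ) (v : Fin n → ℝ)
    (z w : Fin n → ℂ) (t : ℝ) : ℝ :=
  -(form (g₁ g v (ray v z t)) (dual g v z w t) (dual g v z w t)).re

theorem hasDerivAt_dualSq (hD : IsOpen D) (hg : IsInvariantKahler D g) {t : ℝ}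
    (ht : ray v z t ∈ D) (w : Fin n → ℂ) :
    HasDerivAt (dualSq g v z w) (dualSq' g v z w t) t := by
  set y := ray v z t
  set u := dual g v z w t
  have h := Complex.reCLM.hasFDerivAt.comp_hasDerivAt t (hasDerivAt_form
    (M' := of fun i j => g₁ g v y i j - ((v i : ℂ) + v j) * g y i j)
    (fun i j => hasDerivAt_g_ray hD hg ht i j) (hasDerivAt_dual hD hg ht w)
    (hasDerivAt_dual hD hg ht w))
  refine h.congr_deriv ?_
  have hk : g y *ᵥ (((g y)⁻¹ * g₁ g v y) *ᵥ u) = g₁ g v y *ᵥ u := by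
    rw [Matrix.mulVec_mulVec,
      Matrix.mul_nonsing_inv_cancel_left _ _ (hg.posDef y ht).det_pos.ne'.isUnit]
  have e1 : form (g y) u (((g y)⁻¹ * g₁ g v y) *ᵥ u) = form (g₁ g v y) u u := by
    rw [form_eq, hk, ← form_eq]
  have e2 : form (g y) (((g y)⁻¹ * g₁ g v y) *ᵥ u) u = form (g₁ g v y) u u := by
    rw [← form_conj (hg.posDef y ht).1, e1, form_conj (g₁_isHermitian hD hg ht)]
  have e3 := form_shift (g y) v u u
  rw [dualSq', Complex.reCLM_apply, ← Complex.neg_re, form_sub_left, form_sub_right, e1, e2]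
  have e4 : form (of fun i j => g₁ g v y i j - ((v i : ℂ) + v j) * g y i j) u u =
      form (g₁ g v y) u u - form (of fun i j => ((v i : ℂ) + v j) * g y i j) u u := by
    rw [← form_sub_mat]; rfl
  rw [e4, ← e3]
  congr 1
  ring

theorem hasDerivAt_dualSq' (hD : IsOpen D) (hg : IsInvariantKahler D g) {t : ℝ}
    (ht : ray v z t ∈ D) (w : Fin n → ℂ) :
    HasDerivAt (dualSq' g v z w)
      (2 * (form (g₁ g v (ray v z t) * (g (ray v z t))⁻¹ * g₁ g v (ray v z t))
          (dual g v z w t) (dual g v z w t)).re -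
        (form (g₂ g v (ray v z t)) (dual g v z w t) (dual g v z w t)).re) t := by
  set y := ray v z t
  set u := dual g v z w t
  have h := (Complex.reCLM.hasFDerivAt.comp_hasDerivAt t (hasDerivAt_form
    (M' := of fun i j => g₂ g v y i j - ((v i : ℂ) + v j) * g₁ g v y i j)
    (fun i j => hasDerivAt_g₁_ray hD hg ht i j) (hasDerivAt_dual hD hg ht w)
    (hasDerivAt_dual hD hg ht w))).neg
  refine h.congr_deriv ?_
  have e1 : form (g₁ g v y) u (((g y)⁻¹ * g₁ g v y) *ᵥ u) =
      form (g₁ g v y * (g y)⁻¹ * g₁ g v y) u u := by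
    rw [form_eq, form_eq, Matrix.mulVec_mulVec, Matrix.mul_assoc]
  have e2 : form (g₁ g v y) (((g y)⁻¹ * g₁ g v y) *ᵥ u) u =
      conj (form (g₁ g v y * (g y)⁻¹ * g₁ g v y) u u) := by
    rw [← e1, form_conj (g₁_isHermitian hD hg ht)]
  have e3 := form_shift (g₁ g v y) v u u
  have e4 : form (of fun i j => g₂ g v y i j - ((v i : ℂ) + v j) * g₁ g v y i j) u u =
      form (g₂ g v y) u u - form (of fun i j => ((v i : ℂ) + v j) * g₁ g v y i j) u u := by
    rw [← form_sub_mat]; rfl
  rw [Complex.reCLM_apply, form_sub_left, form_sub_right, e1, e2, e4, ← e3]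
  simp
  ring

theorem sqLength_ray_le (hD : IsOpen D) (hg : IsInvariantKahler D g)
    (hR : ∀ y ∈ D, ∀ X Y, 0 ≤ bisec g y X Y) (v : Fin n → ℝ) (hz : z ∈ D) :
    ∃ C, ∀ t : ℝ, 0 ≤ t → (∀ s ∈ Icc 0 t, ray v z s ∈ D) →
      sqLength g (ray v z t) (scaleMap v (ray v z t)) ≤
        Real.exp (C * t) * sqLength g z (scaleMap v z) := by
  obtain ⟨C, hC⟩ := form_bound (hg.posDef z hz) (g₁ g v z)
  refine ⟨C, fun t ht hs => ?_⟩
  have htD := hs t ⟨ht, le_rfl⟩
  set y := ray v z t with hy
  set a := star (scaleMap v y) with ha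
  rw [sqLength_eq, sqLength_eq, ← ha]
  rcases eq_or_ne a 0 with h0 | h0
  · rw [h0]
    rw [show form (g y) 0 0 = 0 by simp [form], Complex.zero_re]
    exact mul_nonneg (Real.exp_pos (C * t)).le (form_nonneg (hg.posDef z hz) _)
  set w : Fin n → ℂ := fun i => (Real.exp (t * v i) : ℂ) * (g y *ᵥ a) i with hw
  have hw0 : ∀ s ∈ Icc 0 t, dual g v z w s ≠ 0 := by
    intro s hs' h
    have h1 := g_mulVec_dual hg (hs s hs') w
    rw [h, Matrix.mulVec_zero] at h1
    have h2 : g y *ᵥ a = 0 := by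
      ext i
      simpa [covec, hw] using (congrFun h1 i).symm
    have h3 := form_pos (hg.posDef y htD) h0
    rw [form_eq, h2] at h3
    simp at h3
  have hpos : ∀ s ∈ Icc 0 t, 0 < dualSq g v z w s := fun s hs' =>
    form_pos (hg.posDef _ (hs s hs')) (hw0 s hs')
  have hmono : MonotoneOn (fun s => dualSq' g v z w s / dualSq g v z w s) (Icc 0 t) := by
    have hd : ∀ s ∈ Icc 0 t, HasDerivAt (fun s => dualSq' g v z w s / dualSq g v z w s) _ s :=
      fun s hs' => (hasDerivAt_dualSq' hD hg (hs s hs') w).div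
        (hasDerivAt_dualSq hD hg (hs s hs') w) (hpos s hs').ne'
    refine monotoneOn_of_hasDerivWithinAt_nonneg (convex_Icc _ _)
      (fun s hs' => (hd s hs').continuousAt.continuousWithinAt)
      (fun s hs' => (hd s (interior_subset hs')).hasDerivWithinAt) (fun s hs' => ?_)
    replace hs' := interior_subset hs'
    refine div_nonneg ?_ (sq_nonneg _)
    have hcurv := bisec_scaleMap hD hg (hs s hs') v (dual g v z w s)
    have hn := hR _ (hs s hs') (scaleMap v (ray v z s)) (star (dual g v z w s))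
    have hp := hg.posDef _ (hs s hs')
    have hcs := form_cs hp (dual g v z w s)
      (((g (ray v z s))⁻¹ * g₁ g v (ray v z s)) *ᵥ dual g v z w s)
    rw [show ∀ b, form (g (ray v z s)) (dual g v z w s) b =
      star (dual g v z w s) ⬝ᵥ (g (ray v z s) *ᵥ b) from form_eq _ _] at hcs
    simp only [Matrix.mulVec_mulVec,
      Matrix.mul_nonsing_inv_cancel_left _ _ hp.det_pos.ne'.isUnit, ← form_eq] at hcs
    have e : form (g (ray v z s)) (((g (ray v z s))⁻¹ * g₁ g v (ray v z s)) *ᵥ dual g v z w s)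
        (((g (ray v z s))⁻¹ * g₁ g v (ray v z s)) *ᵥ dual g v z w s) =
        form (g₁ g v (ray v z s) * (g (ray v z s))⁻¹ * g₁ g v (ray v z s))
          (dual g v z w s) (dual g v z w s) := by
      simp only [form_eq, Matrix.mulVec_mulVec, Matrix.mul_nonsing_inv_cancel_left _ _
        hp.det_pos.ne'.isUnit, star_mulVec, Matrix.conjTranspose_mul,
        (g₁_isHermitian hD hg (hs s hs')).eq, Matrix.conjTranspose_nonsing_inv, hp.1.eq,
        ← Matrix.dotProduct_mulVec, Matrix.mul_assoc]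
    rw [e] at hcs
    have hf := hpos s hs'
    rw [dualSq'] 
    unfold dualSq at hf ⊢
    nlinarith [mul_nonneg hf.le (show (0 : ℝ) ≤ 4 * bisec g (ray v z s) (scaleMap v (ray v z s))
      (star (dual g v z w s)) by linarith)]
  have h0t : (0 : ℝ) ∈ Icc 0 t := ⟨le_rfl, ht⟩
  have hge : ∀ s ∈ Icc 0 t, 0 ≤ dualSq' g v z w s + C * dualSq g v z w s := by
    intro s hs'
    have h1 : -C ≤ dualSq' g v z w 0 / dualSq g v z w 0 := by
      rw [le_div_iff₀ (hpos 0 h0t), dualSq', dualSq, ray_zero]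
      linarith [hC (dual g v z w 0)]
    have h2 := (le_div_iff₀ (hpos s hs')).1 (h1.trans (hmono h0t hs' hs'.1))
    linarith
  have hm2 : MonotoneOn (fun s => dualSq g v z w s * Real.exp (C * s)) (Icc 0 t) := by
    have hd : ∀ s ∈ Icc 0 t, HasDerivAt (fun s => dualSq g v z w s * Real.exp (C * s)) _ s :=
      fun s hs' => (hasDerivAt_dualSq hD hg (hs s hs') w).mul
        ((hasDerivAt_id' s).const_mul C).exp
    refine monotoneOn_of_hasDerivWithinAt_nonneg (convex_Icc _ _)
      (fun s hs' => (hd s hs').continuousAt.continuousWithinAt)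
      (fun s hs' => (hd s (interior_subset hs')).hasDerivWithinAt) (fun s hs' => ?_)
    nlinarith [mul_nonneg (hge s (interior_subset hs')) (Real.exp_pos (C * s)).le]
  have hkey := hm2 h0t ⟨ht, le_rfl⟩ ht
  simp only [mul_zero, Real.exp_zero, mul_one] at hkey
  have hcov : covec v w t = g y *ᵥ a := by
    ext i
    simp [covec, hw, ← mul_assoc, ← Complex.exp_add]
  have hdual : dual g v z w t = a := by
    rw [dual, hcov, Matrix.mulVec_mulVec,
      Matrix.nonsing_inv_mul _ (hg.posDef y htD).det_pos.ne'.isUnit, Matrix.one_mulVec]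
  have hS : (form (g y) a a).re =
      (form (g z) (star (scaleMap v z)) (dual g v z w 0)).re := by
    congr 1
    have h1 := g_mulVec_dual hg (hs 0 h0t) w
    rw [ray_zero] at h1
    rw [form_eq, form_eq, h1]
    simp only [dotProduct, covec, hw, ha, hy, Pi.star_apply, scaleMap_apply, ray]
    refine Finset.sum_congr rfl fun i _ => ?_
    simp; ring
  have hcs := form_cs (hg.posDef z hz) (star (scaleMap v z)) (dual g v z w 0)
  have hfp : (form (g (ray v z t)) a a).re = dualSq g v z w t := by rw [dualSq, hdual]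
  rw [← hy] at hfp
  have h00 : dualSq g v z w 0 = (form (g z) (dual g v z w 0) (dual g v z w 0)).re := by
    rw [dualSq, ray_zero]
  rw [← hS] at hcs
  have hS0 := form_pos (hg.posDef y htD) h0
  have hnn := form_nonneg (hg.posDef z hz) (star (scaleMap v z))
  refine le_of_mul_le_mul_right (a := (form (g y) a a).re) ?_ hS0
  rw [← sq]
  refine hcs.trans ?_
  rw [← h00]
  calc _ ≤ (form (g z) (star (scaleMap v z)) (star (scaleMap v z))).re *
        (dualSq g v z w t * Real.exp (C * t)) := mul_le_mul_of_nonneg_left hkey hnn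
    _ = _ := by rw [hfp]; ring

theorem ray_mem (hD : IsOpen D) (hg : IsInvariantKahler D g) (hc : IsCompleteMetric D g)
    (hR : ∀ y ∈ D, ∀ X Y, 0 ≤ bisec g y X Y) (hz : z ∈ D) (v : Fin n → ℝ) : ray v z 1 ∈ D := by
  have hcont : Continuous (ray v z) :=
    continuous_iff_continuousAt.2 fun t => (hasDerivAt_ray v z t).continuousAt
  by_contra hno
  set B := Icc (0 : ℝ) 1 ∩ ray v z ⁻¹' Dᶜ with hB
  have hBne : B.Nonempty := ⟨1, ⟨zero_le_one, le_rfl⟩, hno⟩
  have hBb : BddBelow B := ⟨0, fun x hx => hx.1.1⟩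
  have hT : sInf B ∈ B :=
    (isClosed_Icc.inter (hD.isClosed_compl.preimage hcont)).csInf_mem hBne hBb
  set T := sInf B
  have hlt : ∀ s ∈ Ico (0 : ℝ) T, ray v z s ∈ D := fun s hs => by
    by_contra h
    exact absurd (csInf_le hBb ⟨⟨hs.1, hs.2.le.trans hT.1.2⟩, h⟩) (not_le.2 hs.2)
  have hT0 : 0 < T := lt_of_le_of_ne hT.1.1 fun h => hT.2 (by rw [← h, ray_zero]; exact hz)
  obtain ⟨C, hC⟩ := sqLength_ray_le hD hg hR v hz
  have hmem : ∀ τ ∈ Ico (0 : ℝ) 1, T * τ ∈ Ico (0 : ℝ) T := fun τ hτ =>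
    ⟨mul_nonneg hT0.le hτ.1, by nlinarith [hτ.2]⟩
  obtain ⟨p, hp, hlim⟩ := hc (fun τ => ray v z (T * τ)) (fun τ => T • scaleMap v (ray v z (T * τ)))
    (fun τ hτ => ⟨hlt _ (hmem τ hτ), ((hasDerivAt_ray v z (T * τ)).scomp τ
      ((hasDerivAt_id' τ).const_mul T |>.congr_deriv (mul_one T))).hasDerivWithinAt⟩)
    (by fun_prop)
    ⟨Real.sqrt (T ^ 2 * (Real.exp (|C| * T) * sqLength g z (scaleMap v z))), fun s hs => by
      refine (Real.le_norm_self _).trans ((intervalIntegral.norm_integral_le_of_norm_le_const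
        (C := Real.sqrt (T ^ 2 * (Real.exp (|C| * T) * sqLength g z (scaleMap v z))))
        fun τ hτ => ?_).trans (mul_le_of_le_one_right (Real.sqrt_nonneg _) ?_))
      · rw [uIoc_of_le hs.1] at hτ
        have hτ' : τ ∈ Ico (0 : ℝ) 1 := ⟨hτ.1.le, hτ.2.trans_lt hs.2⟩
        have h := hC (T * τ) (hmem τ hτ').1 fun r hr =>
          hlt r ⟨hr.1, hr.2.trans_lt (hmem τ hτ').2⟩
        rw [Real.norm_eq_abs, abs_of_nonneg (Real.sqrt_nonneg _)]
        refine Real.sqrt_le_sqrt ?_
        have e : sqLength g (ray v z (T * τ)) (T • scaleMap v (ray v z (T * τ))) =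
            T ^ 2 * sqLength g (ray v z (T * τ)) (scaleMap v (ray v z (T * τ))) := by
          rw [sqLength_eq, sqLength_eq, star_smul, star_trivial, form_smul, ← Complex.ofReal_pow,
            Complex.re_ofReal_mul]
        rw [e]
        refine mul_le_mul_of_nonneg_left (h.trans (mul_le_mul_of_nonneg_right ?_ ?_)) (sq_nonneg _)
        · exact Real.exp_le_exp.2 ((mul_le_mul_of_nonneg_right (le_abs_self C) (hmem τ hτ').1).trans
            (mul_le_mul_of_nonneg_left (hmem τ hτ').2.le (abs_nonneg C)))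
        · rw [sqLength_eq]; exact form_nonneg (hg.posDef z hz) _
      · rw [sub_zero, abs_of_nonneg hs.1]; exact hs.2.le⟩
  have hlim' : Tendsto (fun τ => ray v z (T * τ)) (𝓝[<] 1) (𝓝 (ray v z T)) := by
    have : ContinuousAt (fun τ => ray v z (T * τ)) 1 := by fun_prop
    simpa using this.tendsto.mono_left nhdsWithin_le_nhds
  exact hT.2 (tendsto_nhds_unique hlim hlim' ▸ hp)

/-- A domain with complete nonnegatively curved invariant metric contains every point with the same
zero coordinates as one of its points. -/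
theorem mem_of_same_zeros (hD : IsOpen D) (hg : IsInvariantKahler D g) (hc : IsCompleteMetric D g)
    (hR : ∀ y ∈ D, ∀ X Y, 0 ≤ bisec g y X Y) {p q : Fin n → ℂ} (hp : p ∈ D)
    (h : ∀ i, p i = 0 ↔ q i = 0) : q ∈ D := by
  classical
  let c : Fin n → ℂ := fun i => if p i = 0 then 1 else q i / p i
  have hc0 : ∀ i, c i ≠ 0 := fun i => by
    simp only [c]
    split_ifs with hi
    · exact one_ne_zero
    · exact div_ne_zero (fun hq => hi ((h i).2 hq)) hi
  have h1 := hg.mem_rot _ (ray_mem hD hg hc hR hp fun i => Real.log ‖c i‖)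
    (fun i => c i / (‖c i‖ : ℂ)) fun i => by simp [hc0 i]
  convert h1 using 1
  ext i
  have hn : (‖c i‖ : ℂ) ≠ 0 := by simp [hc0 i]
  simp only [ray, one_mul, Real.exp_log (norm_pos_iff.2 (hc0 i))]
  rw [← mul_assoc, div_mul_cancel₀ _ hn]
  by_cases hi : p i = 0
  · simp [hi, (h i).1 hi]
  · simp [c, hi]

theorem torus_subset (hD : IsOpen D) (hne : D.Nonempty) (hg : IsInvariantKahler D g)
    (hc : IsCompleteMetric D g) (hR : ∀ y ∈ D, ∀ X Y, 0 ≤ bisec g y X Y) {q : Fin n → ℂ}
    (hq : ∀ i, q i ≠ 0) : q ∈ D := by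
  have hd : Dense (Set.univ.pi fun _ : Fin n => ({0}ᶜ : Set ℂ)) :=
    dense_pi _ fun _ _ => dense_compl_singleton 0
  obtain ⟨p, hp, hp'⟩ := hd.exists_mem_open hD hne
  exact mem_of_same_zeros hD hg hc hR hp' fun i => iff_of_false (hp i trivial) (hq i)

theorem eq_univ_of_zero_mem (hD : IsOpen D) (hg : IsInvariantKahler D g)
    (hc : IsCompleteMetric D g) (hR : ∀ y ∈ D, ∀ X Y, 0 ≤ bisec g y X Y) (h0 : (0 : Fin n → ℂ) ∈ D) :
    D = univ := by
  refine eq_univ_of_forall fun q => ?_
  obtain ⟨ε, hε, hball⟩ := Metric.isOpen_iff.1 hD 0 h0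
  set c : ℂ := ((ε / (2 * (‖q‖ + 1)) : ℝ) : ℂ) with hcdef
  have hq1 : 0 < ‖q‖ + 1 := by positivity
  have hc0 : c ≠ 0 := by rw [hcdef, Complex.ofReal_ne_zero]; positivity
  refine mem_of_same_zeros hD hg hc hR (hball (show c • q ∈ _ from ?_)) fun i => by simp [hc0]
  rw [mem_ball_zero_iff, norm_smul, hcdef, Complex.norm_real, Real.norm_of_nonneg (by positivity),
    div_mul_eq_mul_div, div_lt_iff₀ (by positivity)]
  nlinarith [norm_nonneg q]

end Vale.Agent.P253
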