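import Vale.Agent.P253.Scaling

/-! An invariant metric in logarithmic coordinates on a coordinate stratum. -/

namespace Vale.Agent.P253

open Complex ComplexConjugate Matrix Topology Filter Set
open scoped ComplexOrder

variable {n : ℕ} {D : Set (Fin n → ℂ)} {g : (Fin n → ℂ) → Matrix (Fin n) (Fin n) ℂ}
  {z : Fin n → ℂ} {v : Fin n → ℝ}

theorem dz_smul (f : (Fin n → ℂ) → ℂ) (z X : Fin n → ℂ) (c : ℂ) :
    dz f z (c • X) = c * dz f z X := by
  have h1 : c • X = c.re • X + c.im • (I • X) := by
    ext k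
    simp only [Pi.add_apply, Pi.smul_apply, smul_eq_mul, Complex.real_smul]
    linear_combination (-(X k)) * Complex.re_add_im c
  have h2 : I • (c • X) = c.re • (I • X) + (-c.im) • X := by
    ext k
    simp only [Pi.add_apply, Pi.smul_apply, smul_eq_mul, Complex.real_smul, ofReal_neg]
    linear_combination (-(I * X k)) * Complex.re_add_im c + (c.im : ℂ) * X k * I_mul_I
  rw [dz, dz, h2, h1]
  simp only [map_add, map_smul, Complex.real_smul, ofReal_neg]
  linear_combination (fderiv ℝ f z X - I * fderiv ℝ f z (I • X)) / 2 * Complex.re_add_im c +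
    (c.im : ℂ) / 2 * fderiv ℝ f z (I • X) * I_mul_I

theorem scaleMap_single (z : Fin n → ℂ) (k : Fin n) :
    scaleMap (Pi.single k 1) z = z k • (Pi.single k (1 : ℂ) : Fin n → ℂ) := by
  ext m
  rcases eq_or_ne m k with rfl | h <;> simp [*]

/-- The Kaehler condition in logarithmic coordinates. -/
theorem g₁_sym (hD : IsOpen D) (hg : IsInvariantKahler D g) (hz : z ∈ D) (i j k : Fin n) :
    z i * conj (z j) * g₁ g (Pi.single k 1) z i j =
      z k * conj (z j) * g₁ g (Pi.single i 1) z k j := by
  have e : ∀ i j k, g₁ g (Pi.single k 1) z i j =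
      2 * (z k * dz (fun u => g u i j) z (Pi.single k 1)) +
        2 * (((Pi.single k 1 : Fin n → ℝ) i : ℝ) : ℂ) * g z i j := by
    intro i j k
    have h := dz_entry hD hg hz (Pi.single k 1) i j
    rw [scaleMap_single, dz_smul] at h
    linear_combination (-2 : ℂ) * h
  rw [e, e, hg.closed z hz i j k]
  rcases eq_or_ne i k with rfl | h
  · ring
  · rw [Pi.single_eq_of_ne h, Pi.single_eq_of_ne h.symm]
    simp; ring

theorem g₁_linear (hD : IsOpen D) (hg : IsInvariantKahler D g) (hz : z ∈ D) (v : Fin n → ℝ)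
    (i j : Fin n) :
    g₁ g v z i j = ∑ k, (v k : ℂ) * g₁ g (Pi.single k 1) z i j := by
  have e : scaleMap v z = ∑ k, v k • scaleMap (Pi.single k 1) z := by
    ext m
    simp [scaleMap_apply, Finset.sum_apply, Pi.single_apply, apply_ite Complex.ofReal, mul_ite, ite_mul]
  have e' : ∀ m, (v m : ℂ) = ∑ k, (v k : ℂ) * ((Pi.single k 1 : Fin n → ℝ) m : ℝ) := fun m => by
    simp [Pi.single_apply, apply_ite Complex.ofReal]
  simp only [g₁, of_apply, e, map_sum, map_smul, Complex.real_smul, mul_add, ← mul_assoc,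
    Finset.sum_add_distrib]
  rw [← Finset.sum_mul]
  simp only [Finset.sum_add_distrib, ← e', mul_add]

/-- The imaginary parts of the metric in logarithmic coordinates have vanishing derivative. -/
theorem im_g₁ (hD : IsOpen D) (hg : IsInvariantKahler D g) (hz : z ∈ D) (v : Fin n → ℝ)
    (i j : Fin n) : (z i * conj (z j) * g₁ g v z i j).im = 0 := by
  set A : Fin n → Fin n → Fin n → ℝ := fun k i j =>
    (z i * conj (z j) * g₁ g (Pi.single k 1) z i j).im with hA
  have hs : ∀ k i j, A k i j = A i k j := fun k i j => by simp only [hA]; rw [g₁_sym hD hg hz i j k]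
  have ha : ∀ k i j, A k i j = -A k j i := fun k i j => by
    simp only [hA]
    rw [← Complex.conj_im]
    congr 1
    rw [map_mul, map_mul, conj_conj, show conj (g₁ g (Pi.single k 1) z j i) =
      g₁ g (Pi.single k 1) z i j from (g₁_isHermitian hD hg hz).apply i j, mul_comm (conj _)]
  have h0 : ∀ k, A k i j = 0 := fun k => by
    linarith [hs k i j, ha i k j, hs i j k, ha j i k, hs j k i, ha k j i]
  rw [g₁_linear hD hg hz, Finset.mul_sum, Complex.im_sum]
  refine Finset.sum_eq_zero fun k _ => ?_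
  have := h0 k
  simp only [hA] at this
  rw [mul_left_comm, Complex.im_ofReal_mul, this, mul_zero]

theorem hasDerivAt_scaled_entry (hD : IsOpen D) (hg : IsInvariantKahler D g) {t : ℝ}
    (ht : ray v z t ∈ D) (i j : Fin n) :
    HasDerivAt (fun s => ray v z s i * conj (ray v z s j) * g (ray v z s) i j)
      (ray v z t i * conj (ray v z t j) * g₁ g v (ray v z t) i j) t := by
  have h := ((hasDerivAt_pi.1 (hasDerivAt_ray v z t) i).mul
    ((hasDerivAt_pi.1 (hasDerivAt_ray v z t) j).star)).mul (hasDerivAt_g_ray hD hg ht i j)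
  refine h.congr_deriv ?_
  simp
  ring

theorem hasDerivAt_scaled_g₁ (hD : IsOpen D) (hg : IsInvariantKahler D g) {t : ℝ}
    (ht : ray v z t ∈ D) (i j : Fin n) :
    HasDerivAt (fun s => ray v z s i * conj (ray v z s j) * g₁ g v (ray v z s) i j)
      (ray v z t i * conj (ray v z t j) * g₂ g v (ray v z t) i j) t := by
  have h := ((hasDerivAt_pi.1 (hasDerivAt_ray v z t) i).mul
    ((hasDerivAt_pi.1 (hasDerivAt_ray v z t) j).star)).mul (hasDerivAt_g₁_ray hD hg ht i j)
  refine h.congr_deriv ?_
  simp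
  ring

theorem entry_eq_zero (hg : IsInvariantKahler D g) (hz : z ∈ D) {i j : Fin n} (hij : i ≠ j)
    (hj : z j = 0) : g z i j = 0 := by
  classical
  have h := hg.invariant z hz (fun k => if k = j then -1 else 1)
    (fun k => by split_ifs <;> simp) i j
  have e : (fun k => (if k = j then -1 else 1 : ℂ) * z k) = z := by
    ext k; split_ifs with hk <;> simp [*]
  simp only [e, if_neg hij, if_true, one_mul, map_neg, map_one, mul_neg, mul_one] at h
  exact CharZero.neg_eq_self_iff.1 h

theorem entry_eq_zero' (hg : IsInvariantKahler D g) (hz : z ∈ D) {i j : Fin n} (hij : i ≠ j)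
    (hi : z i = 0) : g z i j = 0 := by
  rw [← (hg.posDef z hz).1.apply i j, entry_eq_zero hg hz hij.symm hi, star_zero]

theorem g₁_eq_zero (hD : IsOpen D) (hg : IsInvariantKahler D g) (hz : z ∈ D) {i j : Fin n}
    (hij : i ≠ j) (hi : z i = 0) : g₁ g v z i j = 0 := by
  have hev : ∀ᶠ t : ℝ in 𝓝 0, ray v z t ∈ D :=
    (hasDerivAt_ray v z 0).continuousAt.preimage_mem_nhds
      (by rw [ray_zero]; exact hD.mem_nhds hz)
  have h := hasDerivAt_g_ray (v := v) (z := z) (t := 0) hD hg (by rwa [ray_zero]) i j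
  have h0 : HasDerivAt (fun t => g (ray v z t) i j) 0 0 :=
    (hasDerivAt_const (0 : ℝ) (0 : ℂ)).congr_of_eventuallyEq <| by
      filter_upwards [hev] with t ht
      exact entry_eq_zero' hg ht hij (by simp [ray, hi])
  have := h.unique h0
  simpa [ray_zero, entry_eq_zero' hg hz hij hi] using this

/-- The point of a stratum with given logarithmic coordinates. -/
noncomputable def pt (K : Finset (Fin n)) (s : Fin n → ℝ) : Fin n → ℂ :=
  fun i => if i ∈ K then (Real.exp (s i) : ℂ) else 0

theorem pt_conj (K : Finset (Fin n)) (s : Fin n → ℝ) (i : Fin n) :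
    conj (pt K s i) = pt K s i := by
  unfold pt; split_ifs <;> simp [← Complex.ofReal_exp]

theorem ray_pt (K : Finset (Fin n)) (s v : Fin n → ℝ) (t : ℝ) :
    ray v (pt K s) t = pt K (s + t • v) := by
  ext i
  simp only [ray, pt]
  split_ifs
  · rw [← Complex.ofReal_mul, ← Real.exp_add]; simp [add_comm]
  · simp

theorem im_scaled_zero (hD : IsOpen D) (hg : IsInvariantKahler D g)
    (htor : ∀ q : Fin n → ℂ, (∀ i, q i ≠ 0) → q ∈ D)
    (hmeet : ∀ i j, i ≠ j → ∃ p ∈ D, p i * p j = 0) (hz : z ∈ D) (i j : Fin n) :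
    (z i * conj (z j) * g z i j).im = 0 := by
  rcases eq_or_ne i j with rfl | hij
  · have h1 : (g z i i).im = 0 := Complex.conj_eq_iff_im.1 ((hg.posDef z hz).1.apply i i)
    simp [Complex.mul_conj, h1, Complex.mul_im]
  · set Ψ : (Fin n → ℂ) → ℝ := fun y => (y i * conj (y j) * g y i j).im with hΨ
    have hrot : ∀ y ∈ D, ∀ l : Fin n → ℂ, (∀ k, ‖l k‖ = 1) →
        Ψ (fun k => l k * y k) = Ψ y := by
      intro y hy l hl
      simp only [hΨ]
      rw [← hg.invariant y hy l hl i j, map_mul]
      ring_nf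
    have hconst : ∀ y : Fin n → ℂ, (∀ k, y k ≠ 0) → Ψ y = Ψ (fun _ => 1) := by
      intro y hy
      set v : Fin n → ℝ := fun k => Real.log ‖y k‖
      have hr : ∀ t, ray v (fun _ => 1) t ∈ D := fun t =>
        htor _ fun k => by simp [ray, Complex.exp_ne_zero]
      have hd : ∀ t, HasDerivAt (fun t => Ψ (ray v (fun _ => 1) t)) 0 t := fun t => by
        refine (Complex.imCLM.hasFDerivAt.comp_hasDerivAt t
          (hasDerivAt_scaled_entry hD hg (hr t) i j)).congr_deriv ?_
        exact im_g₁ hD hg (hr t) v i j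
      have h1 := is_const_of_deriv_eq_zero (fun t => (hd t).differentiableAt)
        (fun t => (hd t).deriv) 1 0
      rw [ray_zero] at h1
      have h2 := hrot _ (hr 1) (fun k => y k / (‖y k‖ : ℂ)) fun k => by simp [hy k]
      rw [← h1, ← h2]
      congr 1
      ext k
      have : (‖y k‖ : ℂ) ≠ 0 := by simp [hy k]
      simp [ray, v, ← Complex.ofReal_exp, Real.exp_log (norm_pos_iff.2 (hy k)), this]
    have hd : Dense (Set.univ.pi fun _ : Fin n => ({0}ᶜ : Set ℂ)) :=
      dense_pi _ fun _ _ => dense_compl_singleton 0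
    have hall : ∀ y ∈ D, Ψ y = Ψ (fun _ => 1) := by
      intro y hy
      have hc : ContinuousAt Ψ y := by
        have := (contDiffAt_entry hD hg hy i j).continuousAt
        fun_prop
      have hne : (𝓝[Set.univ.pi fun _ : Fin n => ({0}ᶜ : Set ℂ)] y).NeBot :=
        mem_closure_iff_nhdsWithin_neBot.1 (hd y)
      exact tendsto_nhds_unique (hc.mono_left nhdsWithin_le_nhds)
        ((tendsto_congr' (eventually_nhdsWithin_of_forall
          fun w (hw : w ∈ Set.univ.pi fun _ : Fin n => ({0}ᶜ : Set ℂ)) =>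
          hconst w fun k => hw k trivial)).2 tendsto_const_nhds)
    obtain ⟨p, hp, hp0⟩ := hmeet i j hij
    have h0 : Ψ p = 0 := by
      rcases mul_eq_zero.1 hp0 with h | h <;> simp [hΨ, h]
    exact (hall z hz).trans ((hall p hp).symm.trans h0)

end Vale.Agent.P253
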